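import Vale.Agent.P322.Fn

/-! Elementary calculus of `A`, `J`, `xi`, `sig`. -/

namespace Vale.Agent.P322

open Real Set

theorem A_zero : A 0 = 0 := by simp [A]
theorem J_zero : J 0 = 0 := by simp [J]
theorem J_one : J 1 = log 2 := by norm_num [J]
theorem A_neg (t : ℝ) : A (-t) = -A t := by simp only [A, sub_neg_eq_add, ← sub_eq_add_neg]; ring
theorem J_neg (t : ℝ) : J (-t) = J t := by simp only [J, sub_neg_eq_add, ← sub_eq_add_neg]; ring
theorem J_abs (t : ℝ) : J |t| = J t := by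
  rcases abs_choice t with h | h <;> rw [h]; exact J_neg t

theorem continuous_J : Continuous J := by
  have h1 : Continuous fun t : ℝ => (1 + t) * log (1 + t) := continuous_mul_log.comp (by fun_prop)
  have h2 : Continuous fun t : ℝ => (1 - t) * log (1 - t) := continuous_mul_log.comp (by fun_prop)
  exact (h1.add h2).div_const 2

theorem hasDerivAt_A {t : ℝ} (h : |t| < 1) : HasDerivAt A (1 / (1 - t ^ 2)) t := by
  obtain ⟨h1, h2⟩ := abs_lt.1 h
  have a1 : (1 + t) ≠ 0 := by linarith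
  have a2 : (1 - t) ≠ 0 := by linarith
  have d1 : HasDerivAt (fun t : ℝ => log (1 + t)) (1 / (1 + t)) t :=
    ((hasDerivAt_id t).const_add 1).log a1
  have d2 : HasDerivAt (fun t : ℝ => log (1 - t)) (-1 / (1 - t)) t :=
    ((hasDerivAt_id t).const_sub 1).log a2
  have a3 : (1 - t ^ 2) ≠ 0 := by
    have : 1 - t ^ 2 = (1 + t) * (1 - t) := by ring
    rw [this]; exact mul_ne_zero a1 a2
  refine ((d1.sub d2).div_const 2).congr_deriv ?_
  field_simp; ring

theorem hasDerivAt_J {t : ℝ} (h : |t| < 1) : HasDerivAt J (A t) t := by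
  obtain ⟨h1, h2⟩ := abs_lt.1 h
  have a1 : (1 + t) ≠ 0 := by linarith
  have a2 : (1 - t) ≠ 0 := by linarith
  have e1 : HasDerivAt (fun t : ℝ => 1 + t) 1 t := (hasDerivAt_id t).const_add 1
  have e2 : HasDerivAt (fun t : ℝ => 1 - t) (-1) t := (hasDerivAt_id t).const_sub 1
  refine (((e1.mul (e1.log a1)).add (e2.mul (e2.log a2))).div_const 2).congr_deriv ?_
  unfold A; field_simp; ring

theorem one_sub_sq_pos {t : ℝ} (h : |t| < 1) : 0 < 1 - t ^ 2 := by
  obtain ⟨h1, h2⟩ := abs_lt.1 h; nlinarith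

theorem abs_lt_of {t : ℝ} (h0 : 0 ≤ t) (h1 : t < 1) : |t| < 1 := abs_lt.2 ⟨by linarith, h1⟩

/-- monotonicity from a nonnegative derivative on the open interval -/
theorem le_of_deriv {f f' : ℝ → ℝ} {a b : ℝ} (hab : a ≤ b) (hc : ContinuousOn f (Icc a b))
    (hd : ∀ t, a < t → t < b → HasDerivAt f (f' t) t) (hp : ∀ t, a < t → t < b → 0 ≤ f' t) : f a ≤ f b := by
  rcases hab.eq_or_lt with h | h
  · rw [h]
  obtain ⟨c, hc1, hc2⟩ := exists_hasDerivAt_eq_slope f f' h hc (fun t ht => hd t ht.1 ht.2)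
  have := hp c hc1.1 hc1.2
  rw [hc2, le_div_iff₀ (by linarith)] at this
  linarith

theorem le_of_deriv' {f f' : ℝ → ℝ} {a b : ℝ} (hab : a ≤ b)
    (hd : ∀ t, a ≤ t → t ≤ b → HasDerivAt f (f' t) t) (hp : ∀ t, a < t → t < b → 0 ≤ f' t) : f a ≤ f b :=
  le_of_deriv hab (fun t ht => (hd t ht.1 ht.2).continuousAt.continuousWithinAt)
    (fun t h1 h2 => hd t h1.le h2.le) hp

theorem A_sub_ge {s t : ℝ} (hs : |s| < 1) (ht : |t| < 1) (hst : s ≤ t) : t - s ≤ A t - A s := by
  obtain ⟨h1, h2⟩ := abs_lt.1 hs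
  obtain ⟨h3, h4⟩ := abs_lt.1 ht
  have := le_of_deriv' (f := fun t => A t - t) (f' := fun t => 1 / (1 - t ^ 2) - 1) hst
    (fun x hx1 hx2 => (hasDerivAt_A (abs_lt.2 ⟨by linarith, by linarith⟩)).sub (hasDerivAt_id x))
    (fun x hx1 hx2 => by
      have := one_sub_sq_pos (t := x) (abs_lt.2 ⟨by linarith, by linarith⟩)
      rw [sub_nonneg, le_div_iff₀ this]; nlinarith)
  linarith

theorem A_mono {s t : ℝ} (hs : |s| < 1) (ht : |t| < 1) (hst : s ≤ t) : A s ≤ A t := by
  have := A_sub_ge hs ht hst; linarith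

theorem le_A {t : ℝ} (h0 : 0 ≤ t) (h1 : t < 1) : t ≤ A t := by
  have := A_sub_ge (s := 0) (by simp) (abs_lt_of h0 h1) h0
  rw [A_zero] at this; linarith

theorem J_tangent {t T : ℝ} (ht : |t| < 1) (hT : |T| < 1) :
    J T + A T * (t - T) + (t - T) ^ 2 / 2 ≤ J t := by
  obtain ⟨h1, h2⟩ := abs_lt.1 ht
  obtain ⟨h3, h4⟩ := abs_lt.1 hT
  have hd : ∀ x, |x| < 1 → HasDerivAt (fun x => J x - A T * x - (x - T) ^ 2 / 2) (A x - A T - (x - T)) x := by
    intro x hx
    have e : HasDerivAt (fun x : ℝ => x - T) 1 x := (hasDerivAt_id x).sub_const T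
    refine (((hasDerivAt_J hx).sub ((hasDerivAt_id x).const_mul (A T))).sub ((e.pow 2).div_const 2)).congr_deriv ?_
    simp
  rcases le_total T t with h | h
  · have := le_of_deriv' h (fun x hx1 hx2 => hd x (abs_lt.2 ⟨by linarith, by linarith⟩))
      (fun x hx1 hx2 => by
        have := A_sub_ge hT (t := x) (abs_lt.2 ⟨by linarith, by linarith⟩) hx1.le
        linarith)
    nlinarith
  · have := le_of_deriv' h (fun x hx1 hx2 => (hd x (abs_lt.2 ⟨by linarith, by linarith⟩)).neg)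
      (fun x hx1 hx2 => by
        have := A_sub_ge (s := x) (abs_lt.2 ⟨by linarith, by linarith⟩) hT hx2.le
        linarith)
    simp only [Pi.neg_apply] at this; nlinarith

theorem J_eq {t : ℝ} (h : |t| < 1) : J t = t * A t + log (1 - t ^ 2) / 2 := by
  obtain ⟨h1, h2⟩ := abs_lt.1 h
  have : 1 - t ^ 2 = (1 + t) * (1 - t) := by ring
  rw [this, log_mul (by linarith) (by linarith)]; unfold J A; ring

noncomputable def xi1 (t : ℝ) : ℝ := t / (1 - t ^ 2) - A t

theorem hasDerivAt_xi {t : ℝ} (h : |t| < 1) : HasDerivAt xi (xi1 t) t := by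
  refine (((hasDerivAt_id t).mul (hasDerivAt_A h)).sub ((hasDerivAt_J h).const_mul 2)).congr_deriv ?_
  unfold xi1; simp only [id]; ring

theorem hasDerivAt_xi1 {t : ℝ} (h : |t| < 1) : HasDerivAt xi1 (2 * t ^ 2 / (1 - t ^ 2) ^ 2) t := by
  have hp := one_sub_sq_pos h
  have e : HasDerivAt (fun x : ℝ => 1 - x ^ 2) (-(2 * t)) t := by
    simpa using ((hasDerivAt_id t).pow 2).const_sub 1
  refine (((hasDerivAt_id t).div e hp.ne').sub (hasDerivAt_A h)).congr_deriv ?_
  simp only [id]; field_simp; ring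

theorem xi1_ge {t : ℝ} (h0 : 0 ≤ t) (h1 : t < 1) : 2 / 3 * t ^ 3 ≤ xi1 t := by
  have := le_of_deriv' (f := fun t => xi1 t - 2 / 3 * t ^ 3)
    (f' := fun t => 2 * t ^ 2 / (1 - t ^ 2) ^ 2 - 2 * t ^ 2) h0
    (fun x hx1 hx2 => by
      refine ((hasDerivAt_xi1 (abs_lt_of hx1 (by linarith))).sub
        (((hasDerivAt_id x).pow 3).const_mul (2 / 3))).congr_deriv ?_
      simp; ring)
    (fun x hx1 hx2 => by
      have := one_sub_sq_pos (t := x) (abs_lt_of hx1.le (by linarith))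
      rw [sub_nonneg, le_div_iff₀ (by positivity)]
      have h3 : (1 - x ^ 2) ^ 2 ≤ 1 := by nlinarith [sq_nonneg x]
      nlinarith [sq_nonneg x])
  simp only [xi1, A_zero] at this ⊢; norm_num at this; linarith

theorem xi_ge {t : ℝ} (h0 : 0 ≤ t) (h1 : t < 1) : t ^ 4 / 6 ≤ xi t := by
  have := le_of_deriv' (f := fun t => xi t - t ^ 4 / 6) (f' := fun t => xi1 t - 2 / 3 * t ^ 3) h0
    (fun x hx1 hx2 => by
      refine ((hasDerivAt_xi (abs_lt_of hx1 (by linarith))).sub
        (((hasDerivAt_id x).pow 4).div_const 6)).congr_deriv ?_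
      simp; ring)
    (fun x hx1 hx2 => by have := xi1_ge hx1.le (by linarith); linarith)
  simp only [xi, J_zero] at this ⊢; norm_num at this; linarith

theorem xi_nonneg {t : ℝ} (h0 : 0 ≤ t) (h1 : t < 1) : 0 ≤ xi t :=
  le_trans (by positivity) (xi_ge h0 h1)

theorem J_le_sq' {t : ℝ} (h0 : 0 < t) (h1 : t ≤ 1) : J t ≤ t ^ 2 * log 2 := by
  have := le_of_deriv (f := fun t => J t / t ^ 2) (f' := fun t => xi t / t ^ 3) h1
    (continuous_J.continuousOn.div (by fun_prop) (fun x hx => by have : 0 < x := lt_of_lt_of_le h0 hx.1; positivity))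
    (fun x hx1 hx2 => by
      have hx : 0 < x := by linarith
      refine ((hasDerivAt_J (abs_lt_of hx.le hx2)).div ((hasDerivAt_id x).pow 2)
        (by simp [hx.ne'])).congr_deriv ?_
      unfold xi; simp; field_simp)
    (fun x hx1 hx2 => by
      have hx : 0 < x := by linarith
      have := xi_nonneg hx.le hx2
      positivity)
  simp only [J_one] at this
  rw [div_le_iff₀ (by positivity)] at this; linarith

theorem J_le_sq {t : ℝ} (h : |t| ≤ 1) : J t ≤ t ^ 2 * log 2 := by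
  rcases eq_or_ne t 0 with h0 | h0
  · simp [h0, J_zero]
  have := J_le_sq' (abs_pos.2 h0) h
  rwa [J_abs, sq_abs] at this

theorem sq_le_J {t : ℝ} (h : |t| ≤ 1) : t ^ 2 / 2 ≤ J t := by
  rcases h.eq_or_lt with h1 | h1
  · rw [← J_abs, ← sq_abs, h1, J_one]; have := log_two_gt_d9; norm_num at this ⊢; linarith
  have := J_tangent (T := 0) h1 (by simp)
  simpa [J_zero, A_zero] using this

/-- relative entropy is at most chi-square -/
theorem J_chi {c m : ℝ} (hc : |c| < 1) (hm : |m| < 1) :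
    J c ≤ J m + A m * (c - m) + (c - m) ^ 2 / (1 - m ^ 2) := by
  obtain ⟨h1, h2⟩ := abs_lt.1 hc
  obtain ⟨h3, h4⟩ := abs_lt.1 hm
  have p1 : 0 < 1 + c := by linarith
  have p2 : 0 < 1 - c := by linarith
  have p3 : 0 < 1 + m := by linarith
  have p4 : 0 < 1 - m := by linarith
  have e1 := log_le_sub_one_of_pos (div_pos p1 p3)
  have e2 := log_le_sub_one_of_pos (div_pos p2 p4)
  rw [log_div p1.ne' p3.ne'] at e1
  rw [log_div p2.ne' p4.ne'] at e2
  have f1 := mul_le_mul_of_nonneg_left e1 p1.le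
  have f2 := mul_le_mul_of_nonneg_left e2 p2.le
  have e3 : (c - m) ^ 2 / (1 - m ^ 2)
      = ((1 + c) * ((1 + c) / (1 + m) - 1) + (1 - c) * ((1 - c) / (1 - m) - 1)) / 2 := by
    have : 1 - m ^ 2 = (1 + m) * (1 - m) := by ring
    rw [this]; field_simp; ring
  rw [e3]; unfold J A; nlinarith

theorem A_pos {t : ℝ} (h0 : 0 < t) (h1 : t < 1) : 0 < A t := lt_of_lt_of_le h0 (le_A h0.le h1)

theorem sig_mul_A {r : ℝ} (h0 : 0 < r) (h1 : r < 1) : sig r * A r = xi1 r := by
  have := A_pos h0 h1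
  have := one_sub_sq_pos (abs_lt_of h0.le h1)
  unfold sig xi1; field_simp

theorem sig_pos {r : ℝ} (h0 : 0 < r) (h1 : r < 1) : 0 < sig r := by
  have h2 := A_pos h0 h1
  have h3 := xi1_ge h0.le h1
  rw [← sig_mul_A h0 h1] at h3
  have h4 : 0 < sig r * A r := lt_of_lt_of_le (by positivity) h3
  exact (mul_pos_iff_of_pos_right h2).1 h4

theorem A_ge3 {t : ℝ} (h0 : 0 ≤ t) (h1 : t < 1) : 3 * t / (3 - t ^ 2) ≤ A t := by
  have := le_of_deriv' (f := fun t => A t - 3 * t / (3 - t ^ 2))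
    (f' := fun t => 4 * t ^ 4 / ((1 - t ^ 2) * (3 - t ^ 2) ^ 2)) h0
    (fun x hx1 hx2 => by
      have hp := one_sub_sq_pos (abs_lt_of hx1 (by linarith))
      have hq : 0 < 3 - x ^ 2 := by linarith
      have e : HasDerivAt (fun x : ℝ => 3 - x ^ 2) (-(2 * x)) x := by
        simpa using ((hasDerivAt_id x).pow 2).const_sub 3
      refine ((hasDerivAt_A (abs_lt_of hx1 (by linarith))).sub
        (((hasDerivAt_id x).const_mul 3).div e hq.ne')).congr_deriv ?_
      simp only [id]; field_simp; ring)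
    (fun x hx1 hx2 => by
      have hp := one_sub_sq_pos (t := x) (abs_lt_of hx1.le (by linarith))
      positivity)
  simp only [A_zero] at this; norm_num at this; linarith

theorem sig_le {r : ℝ} (h0 : 0 < r) (h1 : r < 1) : sig r ≤ 2 / 3 * r ^ 2 / (1 - r ^ 2) := by
  have h2 := A_pos h0 h1
  have hp := one_sub_sq_pos (abs_lt_of h0.le h1)
  have h3 := A_ge3 h0.le h1
  have hq : 0 < 3 - r ^ 2 := by linarith
  rw [div_le_iff₀ hq] at h3
  unfold sig
  rw [sub_le_iff_le_add, div_add_one hp.ne', div_le_div_iff₀ (by positivity) hp]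
  nlinarith

noncomputable def sig1 (r : ℝ) : ℝ := ((1 + r ^ 2) * A r - r) / ((1 - r ^ 2) * A r) ^ 2

theorem hasDerivAt_sig {r : ℝ} (h0 : 0 < r) (h1 : r < 1) : HasDerivAt sig (sig1 r) r := by
  have h2 := A_pos h0 h1
  have hp := one_sub_sq_pos (abs_lt_of h0.le h1)
  have e : HasDerivAt (fun x : ℝ => 1 - x ^ 2) (-(2 * r)) r := by
    simpa using ((hasDerivAt_id r).pow 2).const_sub 1
  refine (((hasDerivAt_id r).div (e.mul (hasDerivAt_A (abs_lt_of h0.le h1)))
    (by simp only [Pi.mul_apply]; positivity)).sub_const 1).congr_deriv ?_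
  unfold sig1; simp only [id, Pi.mul_apply]; field_simp; ring

theorem sig1_nonneg {r : ℝ} (h0 : 0 < r) (h1 : r < 1) : 0 ≤ sig1 r := by
  have h2 := le_A h0.le h1
  unfold sig1
  apply div_nonneg _ (sq_nonneg _)
  nlinarith [mul_nonneg (sq_nonneg r) (h0.le.trans h2)]

theorem sig_mono {s r : ℝ} (h0 : 0 < s) (hs : s ≤ r) (h1 : r < 1) : sig s ≤ sig r :=
  le_of_deriv' hs (fun x hx1 hx2 => hasDerivAt_sig (by linarith) (by linarith))
    (fun x hx1 hx2 => sig1_nonneg (by linarith) (by linarith))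

end Vale.Agent.P322
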