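import Vale.Agent.P322.Basic

/-! Averages over the cube and the entropy production `En`. -/

namespace Vale.Agent.P322

open Real Finset

noncomputable def avg {n : ℕ} (g : (Fin n → Bool) → ℝ) : ℝ := (∑ x, g x) / 2 ^ n

def flip {n : ℕ} (i : Fin n) (x : Fin n → Bool) : Fin n → Bool := Function.update x i (!x i)

noncomputable def En {n : ℕ} (u : (Fin n → Bool) → ℝ) : ℝ :=
  ∑ i, avg fun x => A (u x) * (u x - u (flip i x)) / 2

end Vale.Agent.P322
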