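import Mathlib

/-! Statement-level definitions for the Courtade-Kumar inequality, and the scalar functions of the proof. -/

namespace Vale.Agent.P322

open Finset Real

/-- probability that `X = x` and `Z = z`: `X` uniform, the `Z i` independent, `true` (a sign flip) with
probability `ε` -/
noncomputable def wt {n : ℕ} (ε : ℝ) (_x z : Fin n → Bool) : ℝ :=
  (1 / 2) ^ n * ∏ i, if z i = true then ε else 1 - ε

/-- joint law of `(f X, Y)`, where `Y i = X i xor Z i` -/
noncomputable def joint {n : ℕ} (ε : ℝ) (f : (Fin n → Bool) → Bool) (u : Bool) (y : Fin n → Bool) : ℝ :=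
  ∑ x : Fin n → Bool, ∑ z : Fin n → Bool,
    if f x = u ∧ (fun i => xor (x i) (z i)) = y then wt ε x z else 0

/-- mutual information in bits of a joint probability mass function -/
noncomputable def mutInf {α β : Type} [Fintype α] [Fintype β] (p : α → β → ℝ) : ℝ :=
  ∑ a, ∑ b, p a b * logb 2 (p a b / ((∑ b', p a b') * ∑ a', p a' b))

/-- binary entropy in bits -/
noncomputable def h2 (p : ℝ) : ℝ := -p * logb 2 p - (1 - p) * logb 2 (1 - p)

end Vale.Agent.P322
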