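import Mathlib

/-! Scalar functions: `A = artanh`, `J t = log 2 - h((1+t)/2)` (nats), `xi`, `sig`, `Cf`. -/

namespace Vale.Agent.P322

open Real

noncomputable def A (t : ℝ) : ℝ := (log (1 + t) - log (1 - t)) / 2
noncomputable def J (t : ℝ) : ℝ := ((1 + t) * log (1 + t) + (1 - t) * log (1 - t)) / 2
noncomputable def xi (t : ℝ) : ℝ := t * A t - 2 * J t
noncomputable def sig (r : ℝ) : ℝ := r / ((1 - r ^ 2) * A r) - 1
noncomputable def Cf (r : ℝ) : ℝ := xi r + sig r * (log 2 - J r)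

end Vale.Agent.P322
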