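import Vale.Agent.P322.KeyBDef

/-! The two-variable inequality for `x` close to one. -/

namespace Vale.Agent.P322

open Real

theorem large_num {x : ℝ} (hx : 0.96 ≤ x) (hx1 : x < 1) :
    1 ≤ x * (3 / 2 * (1 + 2 * (1 - x)) * -(log (4 * x) + log (1 - x)) + log (1 - x) +
      x * log (4 * x)) := by
  set e := 1 - x with he
  have he0 : 0 < e := by linarith
  have h1 : log (4 * x) ≤ 1.3863 := by
    refine (log_le_log (by linarith) (show 4 * x ≤ 2 ^ 2 by linarith)).trans ?_
    rw [log_pow]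
    push_cast
    linarith [log_two_lt_d9]
  have h2 : log e ≤ 32 * e - 4.46573 := by
    have := log_le_sub_one_of_pos (show 0 < 2 ^ 5 * e by positivity)
    rw [log_mul (by norm_num) he0.ne', log_pow] at this
    push_cast at this
    linarith [log_two_gt_d9]
  have he1 := mul_nonneg he0.le (show 0 ≤ 0.04 - e by linarith)
  have h3 : 1 + 1.0417 * e ≤ 3 / 2 * (1 + 2 * e) * -(log (4 * x) + log e) + log e +
      x * log (4 * x) := by
    have a1 := mul_le_mul_of_nonneg_left h1 (show 0 ≤ 1 / 2 + 4 * e by linarith)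
    have a2 := mul_le_mul_of_nonneg_left h2 (show 0 ≤ 1 / 2 + 3 * e by linarith)
    have hx' : x = 1 - e := by linarith
    have a3 : 3 / 2 * (1 + 2 * e) * -(log (4 * x) + log e) + log e + x * log (4 * x) =
        -((1 / 2 + 3 * e) * log e) - (1 / 2 + 4 * e) * log (4 * x) := by
      conv_lhs => rw [show x * log (4 * x) = (1 - e) * log (4 * x) by rw [← hx']]
      ring
    rw [a3]
    nlinarith
  refine le_trans ?_ (mul_le_mul_of_nonneg_left h3 (by linarith))
  nlinarith

theorem keyB_large {x Z : ℝ} (hx : 0.96 ≤ x) (hx1 : x < 1) (hZ : 0 ≤ Z) : Concl x Z := by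
  have hx0 : 0 < x := by linarith
  have he0 : 0 < 1 - x := by linarith
  have hs : 0 < 2 * x - 1 := by linarith
  have eL : log (1 - (2 * x - 1) ^ 2) = log (4 * x) + log (1 - x) := by
    rw [← log_mul (by linarith) he0.ne']; congr 1; ring
  set L := -(log (4 * x) + log (1 - x)) with hL
  have hL0 : 0 ≤ L := by
    rw [hL, ← eL, neg_nonneg]
    exact log_nonpos (by nlinarith) (by nlinarith)
  set k0 := L / (2 * x - 1) ^ 2 with hk0
  have hk : k0 * (2 * x - 1) ^ 2 = L := by rw [hk0]; field_simp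
  have hk00 : 0 ≤ k0 := by positivity
  have hadm : ∀ k, k ≤ k0 → Adm x k := fun k h => adm_log (by linarith) (by
    rw [eL, ← hL, ← hk]; gcongr)
  rcases le_total (log (1 + Z)) (3 / 2 * k0 * x ^ 2) with h | h
  · exact concl_first hk00 (hadm _ le_rfl) h
  set M := 3 / 2 * (1 + 2 * (1 - x)) * L with hM
  have hM1 : M ≤ 3 / 2 * k0 * x ^ 2 := by
    rw [hM, ← hk]
    have : (1 + 2 * (1 - x)) * (2 * x - 1) ^ 2 ≤ x ^ 2 := by
      nlinarith [mul_nonneg (sq_nonneg (1 - x)) (sub_nonneg.2 hx), sq_nonneg (1 - x)]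
    nlinarith [mul_le_mul_of_nonneg_left this hk00]
  set W := log (1 + Z) with hW
  set P := log (1 + x * Z) with hP
  set U := log (1 + (1 - x) * Z) with hU
  have hP0 : 0 ≤ P := log_nonneg (by nlinarith)
  have h1 : W + log x ≤ P := by
    rw [hW, ← log_mul (by linarith) hx0.ne']
    exact log_le_log (by positivity) (by nlinarith)
  have h2 : log (4 * x) + (log (1 - x) + W) ≤ 2 * U := by
    rw [hW, ← log_mul he0.ne' (by linarith), ← log_mul (by linarith) (by positivity),
      show 2 * U = ((2 : ℕ) : ℝ) * U by norm_num, hU, ← log_pow]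
    refine log_le_log (by positivity) ?_
    nlinarith [sq_nonneg (x - (1 - x) * (1 + Z))]
  have h3 : log (1 - x) + W ≤ U := by
    rw [hW, ← log_mul he0.ne' (by linarith)]
    exact log_le_log (by positivity) (by nlinarith)
  have h4 : x - 1 ≤ x * log x := by
    have := mul_le_mul_of_nonneg_left (one_sub_inv_le_log_of_pos hx0) hx0.le
    rwa [mul_sub, mul_inv_cancel₀ hx0.ne', mul_one] at this
  have h5 := large_num hx hx1
  rw [← hL, ← hM] at h5
  have hlx : log x ≤ 0 := log_nonpos hx0.le hx1.le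
  have h6 : 0 ≤ (1 - x) * (M - W + (1 + x) * U) + log x := by
    have a1 : M + log (1 - x) + x * log (4 * x) ≤ M - W + (1 + x) * U := by
      nlinarith [mul_le_mul_of_nonneg_left h2 hx0.le, mul_le_mul_of_nonneg_left h3 he0.le]
    have a2 := h5.trans (mul_le_mul_of_nonneg_left a1 hx0.le)
    refine le_of_mul_le_mul_left ?_ hx0
    nlinarith [mul_le_mul_of_nonneg_left a2 he0.le]
  rcases le_total (3 / 2 * k0 * x ^ 2) P with h7 | h7
  · refine ⟨k0, x, x, hk00, hadm _ le_rfl, hx0.le, hx1.le, Or.inr ⟨h7, ?_⟩⟩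
    nlinarith [mul_le_mul_of_nonneg_left h1 hx0.le, mul_le_mul_of_nonneg_left hM1 he0.le,
      mul_nonneg he0.le (neg_nonneg.2 hlx)]
  · have e : 3 / 2 * (P / (3 / 2 * x ^ 2)) * x ^ 2 = P := by field_simp
    refine ⟨P / (3 / 2 * x ^ 2), x, x, by positivity, hadm _ ?_, hx0.le, hx1.le,
      Or.inr ⟨e.le, ?_⟩⟩
    · rw [div_le_iff₀ (by positivity)]; linarith
    · have e2 : x * (P + 3 / 2 * (P / (3 / 2 * x ^ 2)) * (x * (2 - x))) -
          3 / 2 * (P / (3 / 2 * x ^ 2)) * x ^ 2 = P := by field_simp; ring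
      rw [← hW, ← hP, ← hU, e2]
      have := mul_le_mul_of_nonneg_left (hM1.trans h) he0.le
      clear_value U P W M k0 L
      linarith

end Vale.Agent.P322
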