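import Vale.Agent.P322.KeyBSmall
import Vale.Agent.P322.KeyBLarge
import Vale.Agent.P322.KeyBMid

/-! The two-variable inequality. -/

namespace Vale.Agent.P322

open Real

theorem keyB (x Z : ℝ) (hx0 : 0 ≤ x) (hx1 : x < 1) (hZ : 0 ≤ Z) :
    ∃ k θ τ : ℝ, 0 ≤ k ∧ (k ≤ 1 ∨ ∀ T : ℝ, 2 * x - 1 ≤ T → T < 1 → 0 < T ∧ k * T ^ 2 ≤ -log (1 - T ^ 2)) ∧
      0 ≤ θ ∧ θ ≤ 1 ∧
      ((θ = 1 ∧ log (1 + Z) ≤ 3 / 2 * k * x ^ 2) ∨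
       (3 / 2 * k * τ ^ 2 ≤ log (1 + θ * Z) ∧
        log (1 + Z) ≤ x * (log (1 + θ * Z) + 3 / 2 * k * (τ * (2 - τ))) - 3 / 2 * k * x ^ 2
          + (1 - x ^ 2) * log (1 + (1 - θ) * Z))) := by
  rcases le_total x (1 / 5) with h | h
  · exact keyB_small hx0 h hZ
  rcases le_total x 0.96 with h' | h'
  · exact keyB_mid x Z h h' hZ
  · exact keyB_large h' hx1 hZ

end Vale.Agent.P322
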