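import Vale.Agent.P322.Step
import Vale.Agent.P322.KeyB

/-! The two tensorizing entropy-production inequalities. -/

namespace Vale.Agent.P322

open Real Finset

namespace Ix

theorem avg_zero (g : (Fin 0 → Bool) → ℝ) : avg g = g default := by
  unfold avg; rw [Fintype.sum_unique, pow_zero, div_one]
  exact congrArg g (Subsingleton.elim _ _)

theorem En_zero (g : (Fin 0 → Bool) → ℝ) : En g = 0 := by
  unfold En; simp

theorem avg_Ic {n : ℕ} (u0 u1 : (Fin n → Bool) → ℝ) :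
    (avg fun y => (J (u0 y) + J (u1 y)) / 2 - J ((u0 y + u1 y) / 2))
      = (avg (fun y => J (u0 y)) + avg (fun y => J (u1 y))) / 2 - avg fun y => J ((u0 y + u1 y) / 2) := by
  unfold avg
  rw [sum_sub_distrib, ← sum_div, sum_add_distrib]; ring

theorem arithP {x v w k τ C C1 C2 : ℝ} (v0 : 0 < v) (xw : x * v ≤ w)
    (h1 : k * τ ^ 2 ≤ C1) (h2 : C ≤ x * (C1 + k * (τ * (2 - τ))) - k * x ^ 2 + (1 - x ^ 2) * C2) :
    C * v ≤ k * (2 * τ * (x * v) - τ ^ 2 * w - x ^ 2 * v) + C1 * w + C2 * (v * (1 - x ^ 2)) := by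
  have a1 := mul_le_mul_of_nonneg_left xw (sub_nonneg.2 h1)
  have a2 := mul_le_mul_of_nonneg_right h2 v0.le
  linarith

theorem indP (n : ℕ) : ∀ (u : (Fin n → Bool) → ℝ), (∀ x, |u x| < 1) → ∀ σ Z, Adms σ Z →
    2 * (avg (fun x => J (u x)) - J (avg u)) - σ * (log 2 - avg (fun x => J (u x)))
      + log (1 + Z) / (3 / 2) * (1 - avg u ^ 2) ≤ En u := by
  induction n with
  | zero =>
    intro u hu σ Z h
    have := h.2 1 zero_le_one le_rfl _ _ (hu default) (hu default)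
    rw [avg_zero, avg_zero, En_zero]
    simpa using this
  | succ n ih =>
    intro u hu σ Z h
    obtain ⟨u0, hu0⟩ : ∃ u0 : (Fin n → Bool) → ℝ, u0 = fun y => u (Fin.cons false y) := ⟨_, rfl⟩
    obtain ⟨u1, hu1⟩ : ∃ u1 : (Fin n → Bool) → ℝ, u1 = fun y => u (Fin.cons true y) := ⟨_, rfl⟩
    have h0 : ∀ y, |u0 y| < 1 := fun y => by rw [hu0]; exact hu _
    have h1 : ∀ y, |u1 y| < 1 := fun y => by rw [hu1]; exact hu _
    have eE : En u = (En u0 + En u1) / 2 + avg fun y => (u0 y - u1 y) * (A (u0 y) - A (u1 y)) / 4 := by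
      rw [hu0, hu1]; exact En_succ u
    have eJ : avg (fun x => J (u x)) = (avg (fun y => J (u0 y)) + avg (fun y => J (u1 y))) / 2 := by
      rw [hu0, hu1]; exact avg_succ _
    have em : avg u = (avg u0 + avg u1) / 2 := by rw [hu0, hu1]; exact avg_succ _
    obtain ⟨x, x0, x1, v0, v1, xw, wv, -, hv, -, hk⟩ := step u0 u1 h0 h1 em rfl rfl rfl rfl
    obtain ⟨k, θ, τ, k0, ka, t0, t1, kb⟩ := keyB x Z x0 x1 h.1
    have hA := h.scale (sub_nonneg.2 t1) (by linarith)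
    have i0 := ih u0 h0 _ _ hA
    have i1 := ih u1 h1 _ _ hA
    have pt := avg_lin (f1 := fun y => (u0 y - u1 y) * (A (u0 y) - A (u1 y)) / 4)
      (f2 := fun y => (J (u0 y) + J (u1 y)) / 2 - J ((u0 y + u1 y) / 2)) (f3 := fun y => J (u0 y))
      (f4 := fun y => J (u1 y)) (f5 := fun y => 1 - ((u0 y + u1 y) / 2) ^ 2) (a0 := θ * σ * log 2) (a1 := 1)
      (a2 := -2) (a3 := -(θ * σ) / 2) (a4 := -(θ * σ) / 2) (a5 := -(log (1 + θ * Z) / (3 / 2)))
      fun y => by linarith [h.2 θ t0 t1 _ _ (h0 y) (h1 y)]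
    have c2 : 0 ≤ log (1 + (1 - θ) * Z) / (3 / 2) :=
      div_nonneg (log_nonneg (by nlinarith [h.1])) (by norm_num)
    have c3 := mul_le_mul_of_nonneg_left hv c2
    rw [eE, eJ]
    generalize avg (fun y => 1 - ((u0 y + u1 y) / 2) ^ 2) = w at *
    generalize 1 - avg u ^ 2 = v at *
    rcases kb with ⟨b1, b2⟩ | ⟨b1, b2⟩
    · have k1 := hk k x k0 ka
      have k2 : log (1 + Z) / (3 / 2) * (v - w) ≤ k * x ^ 2 * (v - w) :=
        mul_le_mul_of_nonneg_right (by linarith) (by linarith)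
      rw [b1] at i0 i1 pt
      simp only [sub_self, zero_mul, add_zero, log_one, zero_div, one_mul] at i0 i1 pt
      linarith
    · have k1 := hk k τ k0 ka
      have k2 := arithP (C := log (1 + Z) / (3 / 2)) (C1 := log (1 + θ * Z) / (3 / 2))
        (C2 := log (1 + (1 - θ) * Z) / (3 / 2)) (k := k) (τ := τ) v0 xw (by linarith) (by linarith)
      linarith

theorem indU (l σ : ℝ) (hF : ∀ a, 0 ≤ a → a ≤ σ → ∀ t, 0 ≤ t → t < 1 → a * J t - xi t ≤ log 2 * a ^ 2 / 2 + l * a)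
    (n : ℕ) : ∀ (u : (Fin n → Bool) → ℝ), (∀ x, |u x| < 1) → ∀ a, 0 ≤ a → a ≤ σ →
    (2 + a) * (avg (fun x => J (u x)) - J (avg u)) - (log 2 * a ^ 2 / 2 + l * a) ≤ En u := by
  induction n with
  | zero =>
    intro u hu a a0 a1
    have := hF a a0 a1 0 le_rfl one_pos
    rw [avg_zero, avg_zero, En_zero]
    simp only [xi, J_zero] at this
    linarith
  | succ n ih =>
    intro u hu a a0 a1
    obtain ⟨u0, hu0⟩ : ∃ u0 : (Fin n → Bool) → ℝ, u0 = fun y => u (Fin.cons false y) := ⟨_, rfl⟩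
    obtain ⟨u1, hu1⟩ : ∃ u1 : (Fin n → Bool) → ℝ, u1 = fun y => u (Fin.cons true y) := ⟨_, rfl⟩
    have h0 : ∀ y, |u0 y| < 1 := fun y => by rw [hu0]; exact hu _
    have h1 : ∀ y, |u1 y| < 1 := fun y => by rw [hu1]; exact hu _
    have eE : En u = (En u0 + En u1) / 2 + avg fun y => (u0 y - u1 y) * (A (u0 y) - A (u1 y)) / 4 := by
      rw [hu0, hu1]; exact En_succ u
    have eJ : avg (fun x => J (u x)) = (avg (fun y => J (u0 y)) + avg (fun y => J (u1 y))) / 2 := by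
      rw [hu0, hu1]; exact avg_succ _
    have em : avg u = (avg u0 + avg u1) / 2 := by rw [hu0, hu1]; exact avg_succ _
    obtain ⟨x, x0, x1, v0, v1, xw, wv, hI, -, hc, hk⟩ := step u0 u1 h0 h1 em rfl rfl rfl rfl
    have k1 := hk 1 x zero_le_one (Or.inl le_rfl)
    have eI := avg_Ic u0 u1
    obtain ⟨η, e0, e1, e2, e3⟩ : ∃ η, 0 ≤ η ∧ η ≤ a ∧ η ≤ x ^ 2 * (1 - avg u ^ 2) ∧
        (η = a ∨ η = x ^ 2 * (1 - avg u ^ 2)) :=
      ⟨min a (x ^ 2 * (1 - avg u ^ 2)), le_min a0 (by positivity), min_le_left _ _, min_le_right _ _,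
        min_choice _ _⟩
    have i0 := ih u0 h0 (a - η) (by linarith) (by linarith)
    have i1 := ih u1 h1 (a - η) (by linarith) (by linarith)
    have pt := avg_lin (f1 := fun y => (u0 y - u1 y) * (A (u0 y) - A (u1 y)) / 4)
      (f2 := fun y => (J (u0 y) + J (u1 y)) / 2 - J ((u0 y + u1 y) / 2)) (f3 := u0) (f4 := u0) (f5 := u0)
      (a0 := log 2 * η ^ 2 / 2 + l * η) (a1 := 1) (a2 := -(2 + η)) (a3 := 0) (a4 := 0) (a5 := 0)
      fun y => by linarith [pt_fenchel (hF η e0 (by linarith)) (h0 y) (h1 y)]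
    rw [eE, eJ]
    rw [eI] at pt k1
    generalize avg (fun y => 1 - ((u0 y + u1 y) / 2) ^ 2) = w at *
    generalize 1 - avg u ^ 2 = v at *
    generalize avg (fun y => J ((u0 y + u1 y) / 2)) = Jc at *
    have c1 : η * (Jc - J (avg u)) ≤ x ^ 2 * (v - w) := by
      apply le_of_mul_le_mul_left _ v0
      have d1 := mul_le_mul_of_nonneg_left hc e0
      have d2 := mul_le_mul_of_nonneg_right e2 (sub_nonneg.2 wv)
      linarith
    have c2 : (a - η) * ((J (avg u0) + J (avg u1)) / 2 - J (avg u)) ≤ (a - η) * (η * log 2) := by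
      rcases e3 with h | h
      · rw [h]; simp
      · exact mul_le_mul_of_nonneg_left (by rw [h]; exact hI) (by linarith)
    linarith

end Ix

theorem famP {n : ℕ} (u : (Fin n → Bool) → ℝ) (hu : ∀ x, |u x| < 1) (r : ℝ) (h0 : 0 < r) (h1 : r < 1) :
    2 * (avg (fun x => J (u x)) - J (avg u)) - sig r * (log 2 - avg (fun x => J (u x)))
      + Cf r * (1 - avg u ^ 2) ≤ En u := by
  have := Ix.indP n u hu _ _ (adm_top h0 h1)
  rwa [add_sub_cancel, log_exp, mul_div_cancel_left₀ _ (by norm_num)] at this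

theorem famU {n : ℕ} (u : (Fin n → Bool) → ℝ) (hu : ∀ x, |u x| < 1) (r : ℝ) (h0 : 0 < r) (h1 : r ≤ 1 / 6) :
    (2 + sig r) * (avg (fun x => J (u x)) - J (avg u)) - (sig r * J r - xi r) ≤ En u := by
  have hs := sig_pos h0 (by linarith)
  have := Ix.indU _ (sig r) (fun a a0 a1 => fenchel h0 h1 a0 a1) n u hu (sig r) hs.le le_rfl
  rw [div_mul_cancel₀ _ hs.ne'] at this
  unfold Kf at this; linarith

end Vale.Agent.P322
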