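import Vale.Agent.P322.KeyBSmall

/-! A checker for the two-variable inequality on cells. -/

namespace Vale.Agent.P322

open Real

/-- denominator of the data -/
def DD : ℕ := 100000000
/-- fixed point scale -/
def SS : ℕ := 79228162514264337593543950336
/-- `DD * 2 ^ 30` -/
def DM : ℕ := 107374182400000000

/-- repeated squaring, rounded down -/
def sqLo : ℕ → ℕ → ℕ
  | 0, v => v
  | m + 1, v => sqLo m (v * v / SS)

/-- repeated squaring, rounded up -/
def sqHi : ℕ → ℕ → ℕ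
  | 0, v => v
  | m + 1, v => sqHi m (v * v / SS + 1)

/-- lower bound of the exponential -/
def eLo (n : ℕ) : ℕ := sqLo 30 (SS + n * SS / DM)

/-- upper bound of the exponential -/
def eHi (n : ℕ) : ℕ :=
  sqHi 30 (SS + (n * SS / DM + 1) + ((n * SS / DM + 1) * (n * SS / DM + 1) / SS + 1))

/-- the real number of a datum -/
noncomputable def rr (n : ℕ) : ℝ := n / DD

theorem SS_pos : (0 : ℝ) < SS := by norm_num [SS]
theorem DD_pos : (0 : ℝ) < DD := by norm_num [DD]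
theorem rr_nonneg (n : ℕ) : 0 ≤ rr n := div_nonneg (Nat.cast_nonneg _) DD_pos.le
theorem rr_le {a b : ℕ} (h : a ≤ b) : rr a ≤ rr b :=
  div_le_div_of_nonneg_right (by exact_mod_cast h) DD_pos.le

theorem div_up (a : ℕ) {b : ℕ} (hb : (0 : ℝ) < b) : (a : ℝ) / b ≤ ((a / b + 1 : ℕ) : ℝ) := by
  rw [div_le_iff₀ hb]
  have h : a < b * (a / b + 1) := Nat.lt_mul_div_succ a (by exact_mod_cast hb)
  rw [mul_comm] at h
  exact_mod_cast h.le

theorem sqLo_le (m : ℕ) : ∀ (v : ℕ) (t : ℝ), (v : ℝ) ≤ exp t * SS →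
    (sqLo m v : ℝ) ≤ exp (2 ^ m * t) * SS := by
  induction m with
  | zero => intro v t h; simpa [sqLo] using h
  | succ m ih =>
    intro v t h
    rw [sqLo, pow_succ, mul_assoc]
    refine ih _ _ (Nat.cast_div_le.trans ?_)
    rw [div_le_iff₀ SS_pos, two_mul, exp_add]
    push_cast
    nlinarith [mul_self_le_mul_self (Nat.cast_nonneg v) h]

theorem le_sqHi (m : ℕ) : ∀ (v : ℕ) (t : ℝ), exp t * SS ≤ v →
    exp (2 ^ m * t) * SS ≤ (sqHi m v : ℝ) := by
  induction m with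
  | zero => intro v t h; simpa [sqHi] using h
  | succ m ih =>
    intro v t h
    rw [sqHi, pow_succ, mul_assoc]
    refine ih _ _ (le_trans ?_ (div_up _ SS_pos))
    rw [le_div_iff₀ SS_pos, two_mul, exp_add]
    push_cast
    nlinarith [mul_self_le_mul_self (mul_nonneg (exp_pos t).le SS_pos.le) h]

theorem rr_eq (n : ℕ) : rr n = 2 ^ 30 * ((n : ℝ) / DM) := by
  simp only [rr, DD, DM]; ring

theorem eLo_le (n : ℕ) : (eLo n : ℝ) ≤ exp (rr n) * SS := by
  rw [rr_eq]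
  refine sqLo_le _ _ _ ?_
  rw [Nat.cast_add]
  have h1 : ((n * SS / DM : ℕ) : ℝ) ≤ (n : ℝ) / DM * SS := Nat.cast_div_le.trans (by
    push_cast; exact le_of_eq (by ring))
  nlinarith [mul_le_mul_of_nonneg_right (add_one_le_exp ((n : ℝ) / DM)) SS_pos.le]

theorem le_eHi {n : ℕ} (hn : n ≤ DM) : exp (rr n) * SS ≤ (eHi n : ℝ) := by
  rw [rr_eq]
  refine le_sqHi _ _ _ ?_
  have hD : (0 : ℝ) < DM := by norm_num [DM]
  have h1 : (n : ℝ) / DM * SS ≤ ((n * SS / DM + 1 : ℕ) : ℝ) := le_trans (by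
    push_cast; exact le_of_eq (by ring)) (div_up _ hD)
  set T := n * SS / DM + 1
  have h2 := div_up (T * T) SS_pos
  have h0 : 0 ≤ (n : ℝ) / DM := by positivity
  have h3 := exp_le_quad h0 ((div_le_one_of_le₀ (by exact_mod_cast hn) hD.le).trans (by norm_num))
  have h4 : ((n : ℝ) / DM) ^ 2 * SS ≤ ((T * T : ℕ) : ℝ) / SS := by
    rw [le_div_iff₀ SS_pos]
    push_cast
    nlinarith [mul_self_le_mul_self (mul_nonneg h0 SS_pos.le) h1]
  rw [Nat.cast_add, Nat.cast_add]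
  nlinarith [mul_le_mul_of_nonneg_right h3 SS_pos.le]

/-- `exp a + exp b ≤ exp c + 1` -/
def exA (a b c : ℕ) : Bool := Nat.ble a DM && (Nat.ble b DM && Nat.ble (eHi a + eHi b) (eLo c + SS))

theorem exA_ok {a b c : ℕ} (h : exA a b c = true) : exp (rr a) + exp (rr b) ≤ exp (rr c) + 1 := by
  simp only [exA, Bool.and_eq_true, Nat.ble_eq] at h
  have h1 := le_eHi h.1
  have h2 := le_eHi h.2.1
  have h3 := eLo_le c
  have h4 : ((eHi a + eHi b : ℕ) : ℝ) ≤ (eLo c + SS : ℕ) := by exact_mod_cast h.2.2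
  push_cast at h4
  refine le_of_mul_le_mul_right ?_ SS_pos
  linarith

/-- the function to be bounded -/
def phi (x B τ P U W : ℝ) : ℝ := x * (P + B * (τ * (2 - τ))) - B * x ^ 2 + (1 - x ^ 2) * U - W

/-- a corner -/
def cor (x B τ P U W : ℕ) : Bool :=
  Nat.ble (x * B * τ * τ + B * x * x * DD + x * x * U * DD + W * DD * DD * DD)
    (x * P * DD * DD + 2 * x * B * τ * DD + U * DD * DD * DD)

theorem cor_ok {x B τ P U W : ℕ} (h : cor x B τ P U W = true) :
    0 ≤ phi (rr x) (rr B) (rr τ) (rr P) (rr U) (rr W) := by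
  simp only [cor, Nat.ble_eq] at h
  have h1 := (Nat.cast_le (α := ℝ)).2 h
  push_cast at h1
  have hD := DD_pos
  have e : phi (rr x) (rr B) (rr τ) (rr P) (rr U) (rr W) =
      ((x * P * DD * DD + 2 * x * B * τ * DD + U * DD * DD * DD) -
      (x * B * τ * τ + B * x * x * DD + x * x * U * DD + W * DD * DD * DD)) / DD ^ 4 := by
    simp only [phi, rr]; field_simp; ring
  rw [e]
  exact div_nonneg (sub_nonneg.2 h1) (by positivity)

theorem quad_conc {a c d x x1 x2 : ℝ} (hc : 0 ≤ c) (h1 : x1 ≤ x) (h2 : x ≤ x2)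
    (e1 : 0 ≤ a * x1 - c * x1 ^ 2 + d) (e2 : 0 ≤ a * x2 - c * x2 ^ 2 + d) :
    0 ≤ a * x - c * x ^ 2 + d := by
  obtain ⟨s, t, hs, ht, hst, rfl⟩ : x ∈ segment ℝ x1 x2 := by
    rw [segment_eq_Icc (h1.trans h2)]; exact ⟨h1, h2⟩
  obtain rfl : t = 1 - s := by linarith
  simp only [smul_eq_mul]
  nlinarith [mul_nonneg hs e1, mul_nonneg ht e2,
    mul_nonneg hc (mul_nonneg (mul_nonneg hs ht) (sq_nonneg (x1 - x2)))]

theorem phi_conc {x x1 x2 B τ P U W : ℝ} (hc : 0 ≤ B + U) (h1 : x1 ≤ x) (h2 : x ≤ x2)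
    (e1 : 0 ≤ phi x1 B τ P U W) (e2 : 0 ≤ phi x2 B τ P U W) : 0 ≤ phi x B τ P U W := by
  have := quad_conc (a := P + B * (τ * (2 - τ))) (d := U - W) hc h1 h2
    (by simp only [phi] at e1; linarith) (by simp only [phi] at e2; linarith)
  simp only [phi]; linarith

theorem exp_interp {c U1 U2 W1 W2 s t : ℝ} (hc : 0 ≤ c) (hs : 0 ≤ s) (ht : 0 ≤ t) (hst : s + t = 1)
    (h1 : exp U1 + c ≤ exp W1) (h2 : exp U2 + c ≤ exp W2) :
    exp (s * U1 + t * U2) + c ≤ exp (s * W1 + t * W2) := by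
  have a1 := convexOn_exp.2 (Set.mem_univ (U1 - W1)) (Set.mem_univ (U2 - W2)) hs ht hst
  have a2 := convexOn_exp.2 (Set.mem_univ (-W1)) (Set.mem_univ (-W2)) hs ht hst
  simp only [smul_eq_mul] at a1 a2
  have b1 : exp (U1 - W1) + c * exp (-W1) ≤ 1 := by
    rw [exp_sub, exp_neg, ← div_eq_mul_inv, ← add_div]
    exact div_le_one_of_le₀ h1 (exp_pos _).le
  have b2 : exp (U2 - W2) + c * exp (-W2) ≤ 1 := by
    rw [exp_sub, exp_neg, ← div_eq_mul_inv, ← add_div]
    exact div_le_one_of_le₀ h2 (exp_pos _).le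
  rw [show s * (U1 - W1) + t * (U2 - W2) = s * U1 + t * U2 - (s * W1 + t * W2) by ring,
    exp_sub] at a1
  rw [show s * -W1 + t * -W2 = -(s * W1 + t * W2) by ring, exp_neg] at a2
  rw [← div_le_one (exp_pos _), add_div, div_eq_mul_inv c]
  nlinarith [mul_le_mul_of_nonneg_left a2 hc, mul_le_mul_of_nonneg_left b1 hs,
    mul_le_mul_of_nonneg_left b2 ht]

/-- a piece -/
def pie (x1 x2 B W1 W2 P τ U1 U2 : ℕ) : Bool :=
  Nat.ble P W1 && (Nat.ble (B * τ * τ) (P * DD * DD) && (exA P U1 W1 && (exA P U2 W2 &&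
    (cor x1 B τ P U1 W1 && (cor x2 B τ P U1 W1 && (cor x1 B τ P U2 W2 && cor x2 B τ P U2 W2))))))

/-- standing assumptions on a cell -/
structure Cell (x Z : ℝ) (x1 x2 B : ℕ) : Prop where
  hZ : 0 ≤ Z
  h1 : rr x1 ≤ x
  h2 : x ≤ rr x2
  h3 : x < 1
  ha : Adm x (2 / 3 * rr B)

variable {x Z : ℝ} {x1 x2 B : ℕ}

theorem Cell.hk (_ : Cell x Z x1 x2 B) : 0 ≤ 2 / 3 * rr B := by linarith [rr_nonneg B]

theorem Cell.x0 (C : Cell x Z x1 x2 B) : 0 ≤ x := (rr_nonneg _).trans C.h1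

theorem Cell.lam (C : Cell x Z x1 x2 B) : 0 ≤ 1 - x ^ 2 := by nlinarith [C.x0, C.h3]

theorem Cell.pie_ok (C : Cell x Z x1 x2 B) {W1 W2 P τ U1 U2 : ℕ}
    (h : pie x1 x2 B W1 W2 P τ U1 U2 = true) (hW1 : rr W1 ≤ log (1 + Z))
    (hW2 : log (1 + Z) ≤ rr W2) : Concl x Z := by
  simp only [pie, Bool.and_eq_true, Nat.ble_eq] at h
  obtain ⟨a1, a2, a3, a4, a5, a6, a7, a8⟩ := h
  have hD := DD_pos
  refine concl_exp (P := rr P) (τ := rr τ) C.hZ C.hk C.ha (rr_nonneg _) ((rr_le a1).trans hW1)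
    ?_ ?_
  · have h1 := (Nat.cast_le (α := ℝ)).2 a2
    push_cast at h1
    simp only [rr]
    rw [← sub_nonneg, show (P : ℝ) / DD - 3 / 2 * (2 / 3 * (B / DD)) * (τ / DD) ^ 2 =
      (P * DD * DD - B * τ * τ) / DD ^ 3 by field_simp]
    exact div_nonneg (sub_nonneg.2 h1) (by positivity)
  obtain ⟨s, t, hs, ht, hst, e⟩ : log (1 + Z) ∈ segment ℝ (rr W1) (rr W2) := by
    rw [segment_eq_Icc (hW1.trans hW2)]; exact ⟨hW1, hW2⟩
  simp only [smul_eq_mul] at e
  have b1 := phi_conc (add_nonneg (rr_nonneg _) (rr_nonneg _)) C.h1 C.h2 (cor_ok a5) (cor_ok a6)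
  have b2 := phi_conc (add_nonneg (rr_nonneg _) (rr_nonneg _)) C.h1 C.h2 (cor_ok a7) (cor_ok a8)
  have b3 := exp_interp (c := exp (rr P) - 1) (sub_nonneg.2 (one_le_exp (rr_nonneg _))) hs ht hst
    (U1 := rr U1) (W1 := rr W1) (U2 := rr U2) (W2 := rr W2) (by linarith [exA_ok a3])
    (by linarith [exA_ok a4])
  rw [e, exp_log (by linarith [C.hZ])] at b3
  have b4 : s * rr U1 + t * rr U2 ≤ log (2 + Z - exp (rr P)) :=
    (le_log_iff_exp_le ((exp_pos _).trans_le (show exp (s * rr U1 + t * rr U2) ≤ _ by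
      linarith))).2 (by linarith)
  have b5 := mul_le_mul_of_nonneg_left b4 C.lam
  have b6 := mul_nonneg hs b1
  have b7 := mul_nonneg ht b2
  obtain rfl : t = 1 - s := by linarith
  simp only [phi] at b6 b7
  rw [← e]
  linarith

/-- a corner of the tail -/
def tco (x B W a b : ℕ) : Bool :=
  Nat.ble (W * x * x + x * a * DD + B * x * x + b * DD * DD) (W * x * DD + x * B * DD + x * x * b)

theorem tco_ok {x B W a b : ℕ} (h : tco x B W a b = true) :
    0 ≤ phi (rr x) (rr B) 1 (rr W - rr a) (rr W - rr b) (rr W) := by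
  simp only [tco, Nat.ble_eq] at h
  have h1 := (Nat.cast_le (α := ℝ)).2 h
  push_cast at h1
  have hD := DD_pos
  have e : phi (rr x) (rr B) 1 (rr W - rr a) (rr W - rr b) (rr W) =
      ((W * x * DD + x * B * DD + x * x * b) -
      (W * x * x + x * a * DD + B * x * x + b * DD * DD)) / DD ^ 3 := by
    simp only [phi, rr]; field_simp; ring
  rw [e]
  exact div_nonneg (sub_nonneg.2 h1) (by positivity)

theorem log_ok {θ a : ℕ} (h : DD * SS ≤ θ * eLo a) : 0 < rr θ ∧ -rr a ≤ log (rr θ) := by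
  have h1 := (Nat.cast_le (α := ℝ)).2 h
  push_cast at h1
  have h2 := h1.trans (mul_le_mul_of_nonneg_left (eLo_le a) (Nat.cast_nonneg θ))
  have h3 : exp (-rr a) ≤ rr θ := by
    rw [exp_neg, rr.eq_1 θ, inv_le_iff_one_le_mul₀ (exp_pos _), div_mul_eq_mul_div,
      le_div_iff₀ DD_pos]
    refine le_of_mul_le_mul_right ?_ SS_pos
    linarith
  have h4 := (exp_pos _).trans_le h3
  exact ⟨h4, (le_log_iff_exp_le h4).2 h3⟩

/-- the tail -/
def tai (x1 x2 B W θ θ' a b : ℕ) : Bool :=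
  Nat.beq (θ + θ') DD && (Nat.ble (DD * SS) (θ * eLo a) && (Nat.ble (DD * SS) (θ' * eLo b) &&
    (Nat.ble (B + a) W && (Nat.ble b (B + W) && (tco x1 B W a b && tco x2 B W a b)))))

theorem rr_add (a b : ℕ) : rr (a + b) = rr a + rr b := by simp [rr, add_div]

theorem Cell.tai_ok (C : Cell x Z x1 x2 B) {W θ θ' a b : ℕ}
    (h : tai x1 x2 B W θ θ' a b = true) (hW : rr W ≤ log (1 + Z)) : Concl x Z := by
  simp only [tai, Bool.and_eq_true, Nat.ble_eq, Nat.beq_eq] at h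
  obtain ⟨a1, a2, a3, a4, a5, a6, a7⟩ := h
  have e : rr θ' = 1 - rr θ := by
    have := congrArg rr a1
    rw [rr_add, rr.eq_1 DD, div_self DD_pos.ne'] at this
    linarith
  obtain ⟨b1, b2⟩ := log_ok a2
  obtain ⟨b3, b4⟩ := log_ok a3
  rw [e] at b3 b4
  have hZ := C.hZ
  have h1 : log (1 + Z) + log (rr θ) ≤ log (1 + rr θ * Z) := by
    rw [← log_mul (by linarith) b1.ne']
    exact log_le_log (by positivity) (by nlinarith)
  have h2 : log (1 + Z) + log (1 - rr θ) ≤ log (1 + (1 - rr θ) * Z) := by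
    rw [← log_mul (by linarith) b3.ne']
    exact log_le_log (by positivity) (by nlinarith)
  have c1 := rr_le a4
  have c2 := rr_le a5
  rw [rr_add] at c1 c2
  have c3 := phi_conc (by linarith) C.h1 C.h2 (tco_ok a6) (tco_ok a7)
  refine ⟨_, rr θ, 1, C.hk, C.ha, b1.le, by linarith, Or.inr ⟨by linarith, ?_⟩⟩
  simp only [phi] at c3
  have d1 := mul_le_mul_of_nonneg_left (show log (1 + Z) - rr a ≤ log (1 + rr θ * Z) by linarith) C.x0
  have d2 := mul_le_mul_of_nonneg_left (show log (1 + Z) - rr b ≤ log (1 + (1 - rr θ) * Z) by linarith) C.lam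
  have d3 := mul_le_mul_of_nonneg_left hW (mul_nonneg C.x0 (sub_nonneg.2 C.h3.le))
  linarith

/-- the pieces of a cell -/
def pies (x1 x2 B θ θ' a b : ℕ) : ℕ → List (ℕ × ℕ × ℕ × ℕ × ℕ) → Bool
  | W, [] => tai x1 x2 B W θ θ' a b
  | W, (W2, P, τ, U1, U2) :: l => pie x1 x2 B W W2 P τ U1 U2 && pies x1 x2 B θ θ' a b W2 l

theorem Cell.pies_ok (C : Cell x Z x1 x2 B) {θ θ' a b : ℕ} : ∀ (l : List (ℕ × ℕ × ℕ × ℕ × ℕ))
    (W : ℕ), pies x1 x2 B θ θ' a b W l = true → rr W ≤ log (1 + Z) → Concl x Z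
  | [], _, h, hW => C.tai_ok h hW
  | (W2, P, τ, U1, U2) :: l, W, h, hW => by
    simp only [pies, Bool.and_eq_true] at h
    rcases le_total (log (1 + Z)) (rr W2) with h2 | h2
    · exact C.pie_ok h.1 hW h2
    · exact C.pies_ok l W2 h.2 h2

/-- the first piece -/
def fir (x1 x2 B W u p v : ℕ) : Bool :=
  Nat.ble 1 u && (Nat.ble (p * DD * DD) (B * x1 * x1) &&
    (Nat.ble (v * DD * DD + x2 * x2 * u) (u * DD * DD) && (Nat.ble u DM && (Nat.ble W DM &&
    (Nat.ble (eHi W + SS) (eLo p + eLo u) &&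
      Nat.ble (eHi u * SS + eLo p * SS) (eLo p * eLo v + SS * SS))))))

theorem Cell.fir_ok (C : Cell x Z x1 x2 B) {W u p v : ℕ} (h : fir x1 x2 B W u p v = true)
    (hW : log (1 + Z) ≤ rr W) : Concl x Z := by
  rcases le_total (log (1 + Z)) (rr B * x ^ 2) with h0 | h0
  · exact concl_first C.hk C.ha (by linarith)
  simp only [fir, Bool.and_eq_true, Nat.ble_eq] at h
  obtain ⟨a1, a2, a3, a4, a5, a6, a7⟩ := h
  have hD := DD_pos
  have hZ := C.hZ
  have hB := rr_nonneg B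
  have b1 : rr p ≤ rr B * x ^ 2 := by
    have h1 := (Nat.cast_le (α := ℝ)).2 a2
    push_cast at h1
    refine le_trans ?_ (mul_le_mul_of_nonneg_left (pow_le_pow_left₀ (rr_nonneg _) C.h1 2) hB)
    simp only [rr]
    rw [← sub_nonneg, show (B : ℝ) / DD * (x1 / DD) ^ 2 - p / DD =
      (B * x1 * x1 - p * DD * DD) / DD ^ 3 by field_simp]
    exact div_nonneg (sub_nonneg.2 h1) (by positivity)
  have b2 : rr v ≤ rr u * (1 - x ^ 2) := by
    have h1 := (Nat.cast_le (α := ℝ)).2 a3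
    push_cast at h1
    refine le_trans ?_ (mul_le_mul_of_nonneg_left (sub_le_sub_left
      (pow_le_pow_left₀ C.x0 C.h2 2) 1) (rr_nonneg u))
    simp only [rr]
    rw [← sub_nonneg, show (u : ℝ) / DD * (1 - (x2 / DD) ^ 2) - v / DD =
      (u * DD * DD - (v * DD * DD + x2 * x2 * u)) / DD ^ 3 by field_simp; ring]
    exact div_nonneg (sub_nonneg.2 h1) (by positivity)
  refine concl_exp (P := rr B * x ^ 2) (τ := x) hZ C.hk C.ha (by positivity) h0 (by linarith) ?_
  set pp := exp (rr B * x ^ 2) with hp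
  have hp0 : 0 < pp := exp_pos _
  have hp1 : (eLo p : ℝ) ≤ pp * SS :=
    (eLo_le p).trans (mul_le_mul_of_nonneg_right (exp_le_exp.2 b1) SS_pos.le)
  have hp2 : pp ≤ 1 + Z := (le_log_iff_exp_le (by linarith)).1 h0
  set q1 := exp (rr u) with hq1
  have hq : 1 < q1 := one_lt_exp_iff.2 (div_pos (by exact_mod_cast a1) hD)
  set q := 2 + Z - pp with hqd
  have c1 : q ≤ q1 := by
    have h1 := (Nat.cast_le (α := ℝ)).2 a6
    push_cast at h1
    have h2 := mul_le_mul_of_nonneg_right ((log_le_iff_le_exp (by linarith)).1 hW) SS_pos.le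
    refine le_of_mul_le_mul_right ?_ SS_pos
    have := le_eHi a5
    have := eLo_le u
    rw [hqd]
    linarith
  have c2 : q1 - 1 ≤ pp * (q1 ^ (1 - x ^ 2) - 1) := by
    have h1 := (Nat.cast_le (α := ℝ)).2 a7
    push_cast at h1
    have h2 : (eLo v : ℝ) ≤ q1 ^ (1 - x ^ 2) * SS := by
      rw [hq1, ← exp_mul]
      exact (eLo_le v).trans (mul_le_mul_of_nonneg_right (exp_le_exp.2 b2) SS_pos.le)
    have h3 : 0 ≤ (q1 ^ (1 - x ^ 2) - 1) * SS :=
      mul_nonneg (sub_nonneg.2 (one_le_rpow hq.le C.lam)) SS_pos.le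
    have h4 := mul_le_mul_of_nonneg_right hp1 h3
    have h5 := mul_le_mul_of_nonneg_left h2 (Nat.cast_nonneg (eLo p))
    have h6 := mul_le_mul_of_nonneg_right (le_eHi a4) SS_pos.le
    refine le_of_mul_le_mul_right ?_ (mul_pos SS_pos SS_pos)
    linarith
  have hq0 : 1 ≤ q := by linarith
  obtain ⟨s, t, hs, ht, hst, e⟩ : q ∈ segment ℝ 1 q1 := by
    rw [segment_eq_Icc hq.le]; exact ⟨hq0, c1⟩
  have hc := (concaveOn_rpow (p := 1 - x ^ 2) C.lam (by linarith [sq_nonneg x])).2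
    (show (1 : ℝ) ∈ Set.Ici 0 by simp) (show q1 ∈ Set.Ici 0 from (exp_pos _).le) hs ht hst
  rw [e] at hc
  simp only [smul_eq_mul, one_rpow, mul_one] at hc e
  have h4 : 1 + Z ≤ pp * q ^ (1 - x ^ 2) := by
    have d1 := mul_le_mul_of_nonneg_left hc hp0.le
    have d2 := mul_le_mul_of_nonneg_left c2 ht
    obtain rfl : s = 1 - t := by linarith
    linarith
  have h5 := log_le_log (by linarith) h4
  rw [log_mul hp0.ne' (by positivity), log_rpow (by linarith), hp, log_exp] at h5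
  refine h5.trans (le_of_eq ?_)
  ring

/-- admissibility -/
def adm (x1 B s n : ℕ) : Bool :=
  Nat.ble (2 * B) (3 * DD) || (Nat.ble 1 s && (Nat.beq (s + DD) (2 * x1) &&
    (Nat.ble (2 * B * s * s) (3 * n * DD * DD) && (Nat.ble n DM && (Nat.ble s DD &&
      Nat.ble ((DD * DD - s * s) * eHi n) (DD * DD * SS))))))

theorem adm_ok {s n : ℕ} (h : adm x1 B s n = true) (h1 : rr x1 ≤ x) (h3 : x < 1) :
    Adm x (2 / 3 * rr B) := by
  have hD := DD_pos
  simp only [adm, Bool.or_eq_true, Bool.and_eq_true, Nat.ble_eq, Nat.beq_eq] at h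
  rcases h with h | ⟨a1, a2, a3, a4, a5, a6⟩
  · left
    have h1 := (Nat.cast_le (α := ℝ)).2 h
    push_cast at h1
    rw [rr, ← mul_div_assoc, div_le_one hD]
    linarith
  have e : 2 * rr x1 - 1 = rr s := by
    have h1 := congrArg (Nat.cast (R := ℝ)) a2
    push_cast at h1
    simp only [rr]
    field_simp
    linarith
  have hs : 0 < rr s := div_pos (by exact_mod_cast a1) hD
  have key : Adm (rr x1) (2 / 3 * rr B) := by
    refine adm_log (by linarith) ?_
    rw [e]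
    have b1 : 2 / 3 * rr B * rr s ^ 2 ≤ rr n := by
      have h1 := (Nat.cast_le (α := ℝ)).2 a3
      push_cast at h1
      simp only [rr]
      rw [← sub_nonneg, show (n : ℝ) / DD - 2 / 3 * (B / DD) * (s / DD) ^ 2 =
        (3 * n * DD * DD - 2 * B * s * s) / (3 * DD ^ 3) by field_simp]
      exact div_nonneg (sub_nonneg.2 h1) (by positivity)
    have b2 : 0 < 1 - rr s ^ 2 := by nlinarith
    have b3 : (1 - rr s ^ 2) * exp (rr n) ≤ 1 := by
      have h1 := (Nat.cast_le (α := ℝ)).2 a6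
      rw [Nat.cast_mul, Nat.cast_sub (Nat.mul_le_mul a5 a5)] at h1
      push_cast at h1
      have e2 : ((DD : ℝ) * DD - s * s) = (1 - rr s ^ 2) * (DD * DD) := by
        simp only [rr]; field_simp
      rw [e2] at h1
      have h2 := mul_le_mul_of_nonneg_left (le_eHi a4) (mul_pos b2 (mul_pos hD hD)).le
      refine le_of_mul_le_mul_right ?_ (mul_pos (mul_pos hD hD) SS_pos)
      linarith
    have b4 := log_nonpos (by positivity) b3
    rw [log_mul b2.ne' (exp_pos _).ne', log_exp] at b4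
    linarith
  rcases key with key | key
  · exact Or.inl key
  · exact Or.inr fun T hT => key T (by linarith)

/-- the data of a cell -/
structure CD where
  (x2 B s n W u p v θ θ' a b : ℕ)
  l : List (ℕ × ℕ × ℕ × ℕ × ℕ)

/-- the cells -/
def cells : ℕ → List CD → Bool
  | x1, [] => Nat.ble 96000001 x1
  | x1, c :: l => adm x1 c.B c.s c.n && (fir x1 c.x2 c.B c.W c.u c.p c.v &&
      (pies x1 c.x2 c.B c.θ c.θ' c.a c.b c.W c.l && cells c.x2 l))

theorem cells_ok (hZ : 0 ≤ Z) (hx : x ≤ 0.96) : ∀ (l : List CD) (x1 : ℕ), cells x1 l = true →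
    rr x1 ≤ x → Concl x Z
  | [], x1, h, h1 => by
    simp only [cells, Nat.ble_eq] at h
    have := (rr_le h).trans (h1.trans hx)
    norm_num [rr, DD] at this
  | c :: l, x1, h, h1 => by
    simp only [cells, Bool.and_eq_true] at h
    rcases le_total x (rr c.x2) with h2 | h2
    · have C : Cell x Z x1 c.x2 c.B := ⟨hZ, h1, h2, by linarith, adm_ok h.1 h1 (by linarith)⟩
      rcases le_total (log (1 + Z)) (rr c.W) with h3 | h3
      · exact C.fir_ok h.2.1 h3
      · exact C.pies_ok _ _ h.2.2.1 h3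
    · exact cells_ok hZ hx l _ h.2.2.2 h2

end Vale.Agent.P322
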