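import Mathlib

/-! The conclusion of the two-variable inequality, and the reduction to a choice of `p`. -/

namespace Vale.Agent.P322

open Real

/-- admissible constants -/
def Adm (x k : ℝ) : Prop :=
  k ≤ 1 ∨ ∀ T : ℝ, 2 * x - 1 ≤ T → T < 1 → 0 < T ∧ k * T ^ 2 ≤ -log (1 - T ^ 2)

/-- the conclusion -/
def Concl (x Z : ℝ) : Prop :=
  ∃ k θ τ : ℝ, 0 ≤ k ∧ Adm x k ∧ 0 ≤ θ ∧ θ ≤ 1 ∧
    ((θ = 1 ∧ log (1 + Z) ≤ 3 / 2 * k * x ^ 2) ∨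
     (3 / 2 * k * τ ^ 2 ≤ log (1 + θ * Z) ∧
      log (1 + Z) ≤ x * (log (1 + θ * Z) + 3 / 2 * k * (τ * (2 - τ))) - 3 / 2 * k * x ^ 2
        + (1 - x ^ 2) * log (1 + (1 - θ) * Z)))

theorem concl_first {x Z k : ℝ} (hk : 0 ≤ k) (ha : Adm x k)
    (h : log (1 + Z) ≤ 3 / 2 * k * x ^ 2) : Concl x Z :=
  ⟨k, 1, 0, hk, ha, zero_le_one, le_rfl, Or.inl ⟨rfl, h⟩⟩

theorem concl_p {x Z k p τ : ℝ} (hZ : 0 ≤ Z) (hk : 0 ≤ k) (ha : Adm x k) (h1 : 1 ≤ p)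
    (h2 : p ≤ 1 + Z) (h3 : 3 / 2 * k * τ ^ 2 ≤ log p)
    (h4 : log (1 + Z) ≤ x * (log p + 3 / 2 * k * (τ * (2 - τ))) - 3 / 2 * k * x ^ 2
      + (1 - x ^ 2) * log (2 + Z - p)) : Concl x Z := by
  have e : (p - 1) / Z * Z = p - 1 := by
    rcases hZ.eq_or_lt with h | h
    · rw [← h, mul_zero]; linarith
    · field_simp
  refine ⟨k, (p - 1) / Z, τ, hk, ha, div_nonneg (by linarith) hZ,
    div_le_one_of_le₀ (by linarith) hZ, Or.inr ?_⟩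
  rw [sub_mul 1 _ Z, e, show 1 + (p - 1) = p by ring, show 1 + (1 * Z - (p - 1)) = 2 + Z - p by ring]
  exact ⟨h3, h4⟩

/-- the version with a prescribed logarithm `P` -/
theorem concl_exp {x Z k P τ : ℝ} (hZ : 0 ≤ Z) (hk : 0 ≤ k) (ha : Adm x k) (h1 : 0 ≤ P)
    (h2 : P ≤ log (1 + Z)) (h3 : 3 / 2 * k * τ ^ 2 ≤ P)
    (h4 : log (1 + Z) ≤ x * (P + 3 / 2 * k * (τ * (2 - τ))) - 3 / 2 * k * x ^ 2
      + (1 - x ^ 2) * log (2 + Z - exp P)) : Concl x Z :=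
  concl_p hZ hk ha (one_le_exp h1) ((le_log_iff_exp_le (by linarith)).1 h2)
    (by rwa [log_exp]) (by rwa [log_exp])

theorem adm_log {x k : ℝ} (hx : 1 / 2 < x)
    (hk : k * (2 * x - 1) ^ 2 ≤ -log (1 - (2 * x - 1) ^ 2)) : Adm x k := by
  refine Or.inr fun T h1 h2 => ⟨by linarith, ?_⟩
  set s := 2 * x - 1
  have hs : 0 < s := by simp only [s]; linarith
  have hT : 0 < T := by linarith
  have h3 : s ^ 2 ≤ T ^ 2 := by gcongr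
  have h4 : T ^ 2 < 1 := by nlinarith
  have hc := strictConcaveOn_log_Ioi.concaveOn.2 (show 1 - T ^ 2 ∈ Set.Ioi 0 by simpa using h4)
    (show (1 : ℝ) ∈ Set.Ioi 0 by simp) (show 0 ≤ s ^ 2 / T ^ 2 by positivity)
    (show 0 ≤ 1 - s ^ 2 / T ^ 2 from sub_nonneg.2 (div_le_one_of_le₀ h3 (by positivity)))
    (by ring)
  simp only [smul_eq_mul, log_one, mul_zero, add_zero, mul_one] at hc
  rw [show s ^ 2 / T ^ 2 * (1 - T ^ 2) + (1 - s ^ 2 / T ^ 2) = 1 - s ^ 2 by field_simp; ring] at hc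
  have h5 : k * s ^ 2 ≤ s ^ 2 / T ^ 2 * -log (1 - T ^ 2) := by linarith
  rw [div_mul_eq_mul_div, le_div_iff₀ (by positivity)] at h5
  refine le_of_mul_le_mul_left (a := s ^ 2) (by linarith) (by positivity)

end Vale.Agent.P322
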