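import Vale.Agent.P322.KeyBDef

/-! The two-variable inequality for small `x`. -/

namespace Vale.Agent.P322

open Real

theorem exp_le_quad {M : ℝ} (h0 : 0 ≤ M) (h1 : M ≤ 3 / 2) : exp M ≤ 1 + M + M ^ 2 := by
  have h := Real.exp_bound' (x := M / 2) (by linarith) (by linarith) (n := 3) (by norm_num)
  simp only [Finset.sum_range_succ, Finset.sum_range_zero, Nat.factorial] at h
  norm_num at h
  have e : exp M = exp (M / 2) ^ 2 := by rw [sq, ← exp_add]; ring_nf
  have h2 : exp (M / 2) ≤ 1 + M / 2 + 2 / 3 * (M / 2) ^ 2 := by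
    nlinarith [mul_nonneg (sq_nonneg M) (sub_nonneg.2 h1)]
  rw [e]
  refine (pow_le_pow_left₀ (exp_pos _).le h2 2).trans ?_
  nlinarith [mul_nonneg (sq_nonneg M) (sub_nonneg.2 h1),
    mul_nonneg (mul_nonneg (sq_nonneg M) (sub_nonneg.2 h1)) h0]

theorem log_ge_sub {Y q : ℝ} (hY : 0 < Y) (hq : 0 < q) : log Y - (Y - q) / q ≤ log q := by
  have := log_le_sub_one_of_pos (div_pos hY hq)
  rw [log_div hY.ne' hq.ne'] at this
  rw [sub_div, div_self hq.ne']
  linarith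

theorem small_a {x Z : ℝ} (hx0 : 0 ≤ x) (hx : x ≤ 1 / 5) (hZ : 0 ≤ Z) (hZ1 : Z ≤ 1)
    (hW : 3 / 2 * x ^ 2 ≤ log (1 + Z)) : Concl x Z := by
  refine concl_exp (k := 1) (P := 3 / 2 * x ^ 2) (τ := x) hZ zero_le_one (Or.inl le_rfl)
    (by positivity) hW (by linarith) ?_
  set y := x ^ 2 with hy
  have hy0 : 0 ≤ y := by positivity
  have hy1 : y ≤ 1 / 25 := by nlinarith
  set p := exp (3 / 2 * y) with hp
  have hp1 : 1 + 3 / 2 * y ≤ p := by linarith [add_one_le_exp (3 / 2 * y)]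
  have hp2 : p ≤ 1 + Z := (le_log_iff_exp_le (by linarith)).1 hW
  set q := 2 + Z - p with hq
  have hq1 : 1 ≤ q := by linarith
  have hq2 : q ≤ 2 := by linarith
  have hc := (concaveOn_rpow (p := 1 - y) (by linarith) (by linarith)).2
    (show (1 : ℝ) ∈ Set.Ici 0 by simp) (show (2 : ℝ) ∈ Set.Ici 0 by simp)
    (show 0 ≤ 2 - q by linarith) (show 0 ≤ q - 1 by linarith) (by ring)
  simp only [smul_eq_mul, one_rpow, mul_one] at hc
  rw [show 2 - q + (q - 1) * 2 = q by ring] at hc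
  have h2 : 2 * (1 - 0.6932 * y) ≤ (2 : ℝ) ^ (1 - y) := by
    rw [rpow_sub two_pos, rpow_one, rpow_def_of_pos two_pos, div_eq_mul_inv, ← exp_neg]
    have := add_one_le_exp (-(log 2 * y))
    have := mul_le_mul_of_nonneg_right log_two_lt_d9.le hy0
    linarith
  have h3 : 1 ≤ p * ((2 : ℝ) ^ (1 - y) - 1) := by
    refine le_trans ?_ (mul_le_mul hp1 (show 1 - 1.3864 * y ≤ _ by linarith) (by linarith)
      (by linarith))
    nlinarith
  have h4 : 1 + Z ≤ p * q ^ (1 - y) := by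
    have := mul_le_mul_of_nonneg_left hc (show 0 ≤ p by linarith)
    nlinarith [mul_le_mul_of_nonneg_left h3 (sub_nonneg.2 hq1)]
  have h5 := log_le_log (by linarith) h4
  rw [log_mul (by linarith) (by positivity), log_rpow (by linarith), hp, log_exp] at h5
  refine h5.trans (le_of_eq ?_)
  rw [hy]
  ring

/-- the choice `τ = ν x` -/
theorem small_nu {x Z ν : ℝ} (hx0 : 0 ≤ x) (hx : x ≤ 1 / 5) (hZ : 0 ≤ Z)
    (h1 : 3 / 2 * (ν * x) ^ 2 ≤ log (1 + Z))
    (h2 : exp (3 / 2 * (ν * x) ^ 2) - 1 ≤ x ^ 2 * (3 / 2 * (2 * ν - 1) - log (1 + Z)) *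
      (2 + Z - exp (3 / 2 * (ν * x) ^ 2))) : Concl x Z := by
  refine concl_exp (k := 1) (P := 3 / 2 * (ν * x) ^ 2) (τ := ν * x) hZ zero_le_one
    (Or.inl le_rfl) (by positivity) h1 (by linarith) ?_
  set p := exp (3 / 2 * (ν * x) ^ 2)
  have hp1 : 1 ≤ p := one_le_exp (by positivity)
  have hp2 : p ≤ 1 + Z := (le_log_iff_exp_le (by linarith)).1 h1
  have hq : 0 < 2 + Z - p := by linarith
  have h3 := log_ge_sub (Y := 1 + Z) (by linarith) hq
  rw [show 1 + Z - (2 + Z - p) = p - 1 by ring] at h3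
  rw [← div_le_iff₀ hq] at h2
  have h4 : 0 ≤ (p - 1) / (2 + Z - p) := div_nonneg (by linarith) hq.le
  have h5 : 0 ≤ 1 - x ^ 2 := by nlinarith
  nlinarith [mul_le_mul_of_nonneg_left h3 h5, mul_nonneg h4 (sq_nonneg x)]

theorem log_le_tan {Y a : ℝ} (hY : 0 < Y) (ha : 0 < a) : log Y ≤ log a + (Y - a) / a := by
  linarith [log_ge_sub hY ha]

theorem small_b {x Z : ℝ} (hx0 : 0 ≤ x) (hx : x ≤ 1 / 5) (hZ : 1 ≤ Z)
    (hW : log (1 + Z) ≤ 2.8) : Concl x Z := by
  have hy : x ^ 2 ≤ 1 / 25 := by nlinarith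
  have hl2 : log 2 ≤ log (1 + Z) := log_le_log two_pos (by linarith)
  refine small_nu (ν := 8 / 5) hx0 hx (by linarith) (by nlinarith [log_two_gt_d9]) ?_
  have h1 := exp_le_quad (M := 3 / 2 * (8 / 5 * x) ^ 2) (by positivity) (by nlinarith)
  set p := exp (3 / 2 * (8 / 5 * x) ^ 2)
  have h2 : p - 1 ≤ 4.43 * x ^ 2 := by nlinarith [sq_nonneg x]
  have h3 : 4.43 ≤ (3.3 - log (1 + Z)) * (1 + Z - 0.1772) := by
    rcases le_total Z 4 with h | h
    · have := log_le_tan (Y := 1 + Z) (a := 2) (by linarith) two_pos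
      have h4 : 3.3 - 0.6932 - (Z - 1) / 2 ≤ 3.3 - log (1 + Z) := by linarith [log_two_lt_d9]
      refine le_trans ?_ (mul_le_mul_of_nonneg_right h4 (by linarith))
      nlinarith
    rcases le_total Z 9 with h' | h'
    · have := log_le_tan (Y := 1 + Z) (a := 2 ^ 3) (by linarith) (by norm_num)
      rw [log_pow] at this
      have h4 : 3.3 - 2.0796 - (Z - 7) / 8 ≤ 3.3 - log (1 + Z) := by
        push_cast at this
        linarith [log_two_lt_d9]
      refine le_trans ?_ (mul_le_mul_of_nonneg_right h4 (by linarith))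
      nlinarith
    · nlinarith
  have h5 : (3.3 - log (1 + Z)) * (1 + Z - 0.1772) ≤ (3.3 - log (1 + Z)) * (2 + Z - p) :=
    mul_le_mul_of_nonneg_left (by linarith) (by linarith)
  have h6 := mul_le_mul_of_nonneg_left (h3.trans h5) (sq_nonneg x)
  nlinarith

theorem small_c {x Z : ℝ} (hx0 : 0 ≤ x) (hx : x ≤ 1 / 5) (hZ : 0 ≤ Z)
    (hW : 2.8 ≤ log (1 + Z)) (hν : (log (1 + Z) + 5 / 2) / 3 * x ≤ 1) : Concl x Z := by
  set W := log (1 + Z) with hWd
  set ν := (W + 5 / 2) / 3 with hνd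
  have hν0 : 0 ≤ ν * x := by positivity
  have hM : 3 / 2 * (ν * x) ^ 2 ≤ 3 / 2 := by nlinarith
  refine small_nu (ν := ν) hx0 hx hZ (by linarith) ?_
  have h1 := exp_le_quad (M := 3 / 2 * (ν * x) ^ 2) (by positivity) hM
  set p := exp (3 / 2 * (ν * x) ^ 2)
  have h2 : p - 1 ≤ 3.75 * (ν * x) ^ 2 := by nlinarith [sq_nonneg (ν * x)]
  have h3 : 3.75 * (1 + ν ^ 2) ≤ 1 + Z := by
    have e1 : (16 : ℝ) ≤ exp 2.8 := by
      rw [← log_le_iff_le_exp (by norm_num), show (16 : ℝ) = 2 ^ 4 by norm_num, log_pow]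
      push_cast
      linarith [log_two_lt_d9]
    have e2 := quadratic_le_exp_of_nonneg (x := W - 2.8) (by linarith)
    have e3 : 1 + Z = exp 2.8 * exp (W - 2.8) := by
      rw [← exp_add, add_sub_cancel, hWd, exp_log (by linarith)]
    have e4 := mul_le_mul e1 e2 (by positivity) (by positivity)
    rw [e3, hνd]
    nlinarith [sq_nonneg (W - 2.8)]
  rw [show 3 / 2 * (2 * ν - 1) - W = 1 by rw [hνd]; ring, mul_one]
  have h4 : 3.75 * ν ^ 2 ≤ 2 + Z - p := by nlinarith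
  nlinarith [mul_le_mul_of_nonneg_left h4 (sq_nonneg x)]

theorem small_d {x Z : ℝ} (hx0 : 0 ≤ x) (hx : x ≤ 1 / 5) (hZ : 0 ≤ Z)
    (hν : 1 ≤ (log (1 + Z) + 5 / 2) / 3 * x) : Concl x Z := by
  have hx1 : 0 < x := hx0.lt_of_ne fun h => by rw [← h] at hν; linarith
  set W := log (1 + Z) with hWd
  have h1 : W + log x ≤ log (1 + x * Z) := by
    rw [hWd, ← log_mul (by linarith) hx1.ne']
    exact log_le_log (by positivity) (by nlinarith)
  have h2 : W + log (1 - x) ≤ log (1 + (1 - x) * Z) := by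
    rw [hWd, ← log_mul (by linarith) (by linarith)]
    exact log_le_log (mul_pos (by linarith) (by linarith)) (by nlinarith)
  have h3 : x - 1 ≤ x * log x := by
    have := mul_le_mul_of_nonneg_left (one_sub_inv_le_log_of_pos hx1) hx0
    rwa [mul_sub, mul_inv_cancel₀ hx1.ne', mul_one] at this
  have h4 : -x ≤ (1 - x) * log (1 - x) := by
    have := mul_le_mul_of_nonneg_left (one_sub_inv_le_log_of_pos (show 0 < 1 - x by linarith))
      (show 0 ≤ 1 - x by linarith)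
    rw [mul_sub, mul_inv_cancel₀ (by linarith), mul_one] at this
    linarith
  have h5 : 5 / 2 ≤ x * W := by nlinarith
  refine ⟨1, x, 1, zero_le_one, Or.inl le_rfl, hx0, by linarith, Or.inr ⟨?_, ?_⟩⟩
  · refine le_of_mul_le_mul_left ?_ hx1
    nlinarith [mul_le_mul_of_nonneg_left h1 hx0]
  · have h6 := mul_le_mul_of_nonneg_left h2 (show 0 ≤ 1 - x ^ 2 by nlinarith)
    have h7 := mul_le_mul_of_nonneg_left h4 (show 0 ≤ 1 + x by linarith)
    have h8 := mul_le_mul_of_nonneg_left h5 (show 0 ≤ 1 - x by linarith)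
    nlinarith [mul_le_mul_of_nonneg_left h1 hx0]

theorem keyB_small {x Z : ℝ} (hx0 : 0 ≤ x) (hx : x ≤ 1 / 5) (hZ : 0 ≤ Z) : Concl x Z := by
  rcases le_total (log (1 + Z)) (3 / 2 * x ^ 2) with h | h
  · exact concl_first zero_le_one (Or.inl le_rfl) (by linarith)
  rcases le_total Z 1 with h1 | h1
  · exact small_a hx0 hx hZ h1 h
  rcases le_total (log (1 + Z)) 2.8 with h2 | h2
  · exact small_b hx0 hx h1 h2
  rcases le_total ((log (1 + Z) + 5 / 2) / 3 * x) 1 with h3 | h3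
  · exact small_c hx0 hx hZ h2 h3
  · exact small_d hx0 hx hZ h3

end Vale.Agent.P322
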