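import Vale.Agent.P322.Fn

/-! One-variable inequality: with `g = 3/2 * sig r * (log 2 - J r)`, `g < 1` and
`-g - log (1-g) ≤ 3/2 * xi r`.  Series bounds on cells in `y = r^2`, and a direct tail estimate. -/

namespace Vale.Agent.P322

open Real Finset

section
variable {α : Type} [Field α]

/-- upper bound for `(1 - (1-y) A/r) / y` -/
def gN (y : α) (K : ℕ) : α :=
  ∑ k ∈ range K, 2 * y ^ k / ((2 * k + 1) * (2 * k + 3)) + y ^ K / (2 * K + 1)
/-- lower bound for `J` -/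
def gJ (y : α) (K : ℕ) : α := ∑ k ∈ range K, y ^ (k + 1) / ((2 * k + 1) * (2 * k + 2))
/-- lower bound for `xi / y^2` -/
def gX (y : α) (K : ℕ) : α := ∑ k ∈ range K, y ^ k * (k + 1) / ((2 * k + 3) * (k + 2))
/-- upper bound for `(-g - log (1-g)) / g^2` -/
def gH (g : α) (M : ℕ) : α := ∑ j ∈ range M, g ^ j / (j + 2) + g ^ M / (1 - g)
end

theorem cast_gN (y : ℚ) (K : ℕ) : ((gN y K : ℚ) : ℝ) = gN (y : ℝ) K := by
  unfold gN; push_cast; rfl
theorem cast_gJ (y : ℚ) (K : ℕ) : ((gJ y K : ℚ) : ℝ) = gJ (y : ℝ) K := by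
  unfold gJ; push_cast; rfl
theorem cast_gX (y : ℚ) (K : ℕ) : ((gX y K : ℚ) : ℝ) = gX (y : ℝ) K := by
  unfold gX; push_cast; rfl
theorem cast_gH (y : ℚ) (K : ℕ) : ((gH y K : ℚ) : ℝ) = gH (y : ℝ) K := by
  unfold gH; push_cast; rfl

theorem gN_mono {x y : ℝ} (h0 : 0 ≤ x) (h : x ≤ y) (K : ℕ) : gN x K ≤ gN y K := by
  unfold gN; gcongr
theorem gN_nonneg {x : ℝ} (h0 : 0 ≤ x) (K : ℕ) : 0 ≤ gN x K := by
  unfold gN; positivity
theorem gJ_mono {x y : ℝ} (h0 : 0 ≤ x) (h : x ≤ y) (K : ℕ) : gJ x K ≤ gJ y K := by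
  unfold gJ; gcongr
theorem gX_mono {x y : ℝ} (h0 : 0 ≤ x) (h : x ≤ y) (K : ℕ) : gX x K ≤ gX y K := by
  unfold gX; gcongr
theorem gH_mono {x y : ℝ} (h0 : 0 ≤ x) (h : x ≤ y) (h1 : y < 1) (K : ℕ) : gH x K ≤ gH y K := by
  have h2 : 0 ≤ y := h0.trans h
  have h3 : 0 < 1 - y := by linarith
  unfold gH; gcongr

theorem gN_eq (y : ℝ) (K : ℕ) :
    1 - (1 - y) * ∑ k ∈ range (K + 1), y ^ k / (2 * k + 1) = y * gN y K := by
  induction K with
  | zero => simp [gN]
  | succ K ih =>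
    rw [sum_range_succ, mul_add, ← sub_sub, ih]
    unfold gN
    rw [sum_range_succ]
    push_cast
    field_simp
    ring

theorem hs_rA {r : ℝ} (h0 : 0 < r) (h1 : r < 1) :
    HasSum (fun k : ℕ => (r ^ 2) ^ (k + 1) / (2 * k + 1)) (r * A r) := by
  have h := (hasSum_log_sub_log_of_abs_lt_one (x := r) (by rwa [abs_of_pos h0])).mul_left (r / 2)
  have e : r * A r = r / 2 * (log (1 + r) - log (1 - r)) := by unfold A; ring
  have e2 : (fun k : ℕ => (r ^ 2) ^ (k + 1) / (2 * (k : ℝ) + 1)) =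
      fun k : ℕ => r / 2 * (2 * (1 / (2 * (k : ℝ) + 1)) * r ^ (2 * k + 1)) := by
    funext k
    rw [← pow_mul]
    field_simp
    ring
  rw [e, e2]
  exact h

theorem hs_J {r : ℝ} (h0 : 0 < r) (h1 : r < 1) :
    HasSum (fun k : ℕ => (r ^ 2) ^ (k + 1) / ((2 * k + 1) * (2 * k + 2))) (J r) := by
  have hy : |r ^ 2| < 1 := by rw [abs_of_nonneg (sq_nonneg r)]; nlinarith
  have h := (hs_rA h0 h1).sub ((hasSum_pow_div_log_of_abs_lt_one hy).div_const 2)
  have e : J r = r * A r - -log (1 - r ^ 2) / 2 := by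
    have : 1 - r ^ 2 = (1 + r) * (1 - r) := by ring
    rw [this, log_mul (by linarith) (by linarith)]
    unfold J A; ring
  have e2 : (fun k : ℕ => (r ^ 2) ^ (k + 1) / ((2 * (k : ℝ) + 1) * (2 * k + 2))) =
      fun k : ℕ => (r ^ 2) ^ (k + 1) / (2 * k + 1) - (r ^ 2) ^ (k + 1) / (k + 1) / 2 := by
    funext k
    field_simp
    ring
  rw [e, e2]
  exact h

theorem hs_xi {r : ℝ} (h0 : 0 < r) (h1 : r < 1) :
    HasSum (fun k : ℕ => (r ^ 2) ^ (k + 1) * k / ((2 * k + 1) * (k + 1))) (xi r) := by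
  have h := (hs_rA h0 h1).sub ((hs_J h0 h1).mul_left 2)
  have e2 : (fun k : ℕ => (r ^ 2) ^ (k + 1) * (k : ℝ) / ((2 * k + 1) * (k + 1))) =
      fun k : ℕ => (r ^ 2) ^ (k + 1) / (2 * k + 1) -
        2 * ((r ^ 2) ^ (k + 1) / ((2 * (k : ℝ) + 1) * (2 * k + 2))) := by
    funext k
    field_simp
    ring
  rw [e2]
  exact h

theorem gJ_le {r : ℝ} (h0 : 0 < r) (h1 : r < 1) (K : ℕ) : gJ (r ^ 2) K ≤ J r :=
  sum_le_hasSum _ (fun k _ => by positivity) (hs_J h0 h1)

theorem gX_le {r : ℝ} (h0 : 0 < r) (h1 : r < 1) (K : ℕ) : (r ^ 2) ^ 2 * gX (r ^ 2) K ≤ xi r := by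
  refine le_trans (le_of_eq ?_)
    (sum_le_hasSum (range (K + 1)) (fun k _ => by positivity) (hs_xi h0 h1))
  rw [sum_range_succ', gX, mul_sum]
  simp only [Nat.cast_zero, mul_zero, zero_div, add_zero]
  refine sum_congr rfl fun k _ => ?_
  push_cast
  field_simp
  ring

theorem sigG_le {r : ℝ} (h0 : 0 < r) (h1 : r < 1) (K : ℕ) {n : ℝ} (hn : gN (r ^ 2) K ≤ n) {y : ℝ}
    (hy : r ^ 2 ≤ y) (hyn : y * n < 1) : sig r ≤ r ^ 2 * (n / (1 - y * n)) := by
  have h2 : r ^ 2 * ∑ k ∈ range (K + 1), (r ^ 2) ^ k / (2 * k + 1) ≤ r * A r := by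
    refine le_trans (le_of_eq ?_)
      (sum_le_hasSum (range (K + 1)) (fun k _ => by positivity) (hs_rA h0 h1))
    rw [mul_sum]
    exact sum_congr rfl fun k _ => by ring
  have h3 := gN_eq (r ^ 2) K
  set S := ∑ k ∈ range (K + 1), (r ^ 2) ^ k / (2 * (k : ℝ) + 1)
  have hn0 : 0 ≤ n := (gN_nonneg (sq_nonneg r) K).trans hn
  have h4 : r * S ≤ A r := le_of_mul_le_mul_left (by nlinarith) h0
  have h5 : 0 < 1 - r ^ 2 := by nlinarith
  have h6 : 1 - r ^ 2 * n ≤ (1 - r ^ 2) * S := by nlinarith [sq_nonneg r]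
  have h7 : r ^ 2 * n ≤ y * n := by gcongr
  have h8 : r * (1 - r ^ 2 * n) ≤ (1 - r ^ 2) * A r := by nlinarith
  have h9 : 0 < 1 - r ^ 2 * n := by linarith
  calc sig r ≤ r / (r * (1 - r ^ 2 * n)) - 1 := by
        unfold sig
        gcongr
    _ = r ^ 2 * (n / (1 - r ^ 2 * n)) := by field_simp; ring
    _ ≤ _ := by gcongr

theorem AG_pos {r : ℝ} (h0 : 0 < r) (h1 : r < 1) : 0 < A r := by
  have := log_lt_log (show 0 < 1 - r by linarith) (show 1 - r < 1 + r by linarith)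
  unfold A; linarith

theorem sig_nonneg {r : ℝ} (h0 : 0 < r) (h1 : r < 1) : 0 ≤ sig r := by
  have h5 : 0 < 1 - r ^ 2 := by nlinarith
  have hw : 1 ≤ (1 + r) / (1 - r) := by rw [le_div_iff₀ (by linarith)]; linarith
  have h2 := self_le_sinh_iff.2 (log_nonneg hw)
  rw [sinh_log (by linarith), log_div (by linarith) (by linarith)] at h2
  have h3 : ((1 + r) / (1 - r) - ((1 + r) / (1 - r))⁻¹) / 2 = 2 * r / (1 - r ^ 2) := by
    have : 1 - r ≠ 0 := by linarith
    have : 1 + r ≠ 0 := by linarith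
    field_simp
    ring
  rw [h3, le_div_iff₀ h5] at h2
  unfold sig
  rw [sub_nonneg, le_div_iff₀ (mul_pos h5 (AG_pos h0 h1))]
  unfold A
  linarith

theorem J_le {r : ℝ} (h0 : 0 < r) (h1 : r < 1) : J r ≤ log 2 := by
  have h2 : log (1 + r) ≤ log 2 := log_le_log (by linarith) (by linarith)
  have h3 : log (1 - r) ≤ log 2 := log_le_log (by linarith) (by linarith)
  unfold J
  nlinarith

theorem fin_step {g x G : ℝ} (h0 : 0 ≤ g) (hG : g ≤ G) (h1 : G < 1) (M : ℕ)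
    (h : g ^ 2 * gH G M ≤ x) : g ≤ 1 - exp (-(x + g)) := by
  have hg : g < 1 := hG.trans_lt h1
  have h2 := (abs_le.1 (abs_log_sub_add_sum_range_le (x := g) (by rwa [abs_of_nonneg h0])
    (M + 1))).1
  rw [abs_of_nonneg h0, sum_range_succ'] at h2
  have h3 : g ^ 2 * gH g M = ∑ k ∈ range M, g ^ (k + 1 + 1) / (((k + 1 : ℕ) : ℝ) + 1) +
      g ^ (M + 1 + 1) / (1 - g) := by
    rw [gH, mul_add, mul_sum]
    congr 1
    · refine sum_congr rfl fun k _ => ?_
      push_cast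
      ring
    · ring
  have h4 : g ^ 2 * gH g M ≤ g ^ 2 * gH G M := by
    have := gH_mono h0 hG h1 M
    gcongr
  have h5 : -(x + g) ≤ log (1 - g) := by
    simp only [Nat.cast_zero, zero_add, pow_one, div_one] at h2
    linarith
  have h6 := exp_le_exp.2 h5
  rw [exp_log (by linarith)] at h6
  linarith

/-- the check on one cell -/
def gcell (a b K c : ℕ) : Bool :=
  decide ((b : ℚ) / 4096 * gN ((b : ℚ) / 4096) K < 1) &&
  decide (3 / 2 * (gN ((b : ℚ) / 4096) K / (1 - (b : ℚ) / 4096 * gN ((b : ℚ) / 4096) K) *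
    (6931471808 / 10 ^ 10 - gJ ((a : ℚ) / 4096) K)) ≤ (c : ℚ) / 2 ^ 20) &&
  decide ((c : ℚ) / 2 ^ 20 * ((b : ℚ) / 4096) < 1) &&
  decide (((c : ℚ) / 2 ^ 20) ^ 2 * gH ((c : ℚ) / 2 ^ 20 * ((b : ℚ) / 4096)) 40 ≤
    3 / 2 * gX ((a : ℚ) / 4096) K)

theorem gcell_sound {a b K c : ℕ} (h : gcell a b K c = true) {r : ℝ} (h0 : 0 < r) (h1 : r < 1)
    (ha : (a : ℝ) / 4096 ≤ r ^ 2) (hb : r ^ 2 ≤ (b : ℝ) / 4096) :
    3 / 2 * (sig r * (log 2 - J r)) ≤ 1 - exp (-(3 / 2 * Cf r)) := by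
  simp only [gcell, Bool.and_eq_true, decide_eq_true_eq] at h
  obtain ⟨⟨⟨c1, c2⟩, c3⟩, c4⟩ := h
  have d1 := (Rat.cast_lt (K := ℝ)).2 c1
  have d2 := (Rat.cast_le (K := ℝ)).2 c2
  have d3 := (Rat.cast_lt (K := ℝ)).2 c3
  have d4 := (Rat.cast_le (K := ℝ)).2 c4
  push_cast [cast_gN, cast_gJ, cast_gX, cast_gH] at d1 d2 d3 d4
  set y1 : ℝ := (a : ℝ) / 4096
  set y2 : ℝ := (b : ℝ) / 4096
  set γ : ℝ := (c : ℝ) / 2 ^ 20
  have hy1 : 0 ≤ y1 := by positivity
  have hγ : 0 ≤ γ := by positivity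
  have e1 := sigG_le h0 h1 K (gN_mono (sq_nonneg r) hb K) hb d1
  have e2 : log 2 - J r ≤ 6931471808 / 10 ^ 10 - gJ y1 K := by
    have := gJ_le h0 h1 K
    have := gJ_mono hy1 ha K
    have := log_two_lt_d9
    norm_num at this ⊢
    linarith
  have e3 := sub_nonneg.2 (J_le h0 h1)
  have e4 := sig_nonneg h0 h1
  have e5 : 0 ≤ gN y2 K / (1 - y2 * gN y2 K) :=
    div_nonneg (gN_nonneg (hy1.trans (ha.trans hb)) K) (by linarith)
  have e6 : 3 / 2 * (sig r * (log 2 - J r)) ≤ r ^ 2 * γ := by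
    calc 3 / 2 * (sig r * (log 2 - J r)) ≤
        3 / 2 * (r ^ 2 * (gN y2 K / (1 - y2 * gN y2 K)) * (6931471808 / 10 ^ 10 - gJ y1 K)) := by
          gcongr
      _ = r ^ 2 * (3 / 2 * (gN y2 K / (1 - y2 * gN y2 K) * (6931471808 / 10 ^ 10 - gJ y1 K))) := by
          ring
      _ ≤ _ := by gcongr
  have e7 : 0 ≤ 3 / 2 * (sig r * (log 2 - J r)) := by positivity
  have e8 : 3 / 2 * Cf r = 3 / 2 * xi r + 3 / 2 * (sig r * (log 2 - J r)) := by unfold Cf; ring
  rw [e8]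
  refine fin_step e7 (e6.trans (by nlinarith)) d3 40 ?_
  have e9 : 0 ≤ gH (γ * y2) 40 := by
    have : 0 < 1 - γ * y2 := by linarith
    have : 0 ≤ y2 := hy1.trans (ha.trans hb)
    unfold gH; positivity
  have e10 := gX_le h0 h1 K
  have e11 := gX_mono hy1 ha K
  calc (3 / 2 * (sig r * (log 2 - J r))) ^ 2 * gH (γ * y2) 40 ≤ (r ^ 2 * γ) ^ 2 * gH (γ * y2) 40 := by
        gcongr
    _ = (r ^ 2) ^ 2 * (γ ^ 2 * gH (γ * y2) 40) := by ring
    _ ≤ (r ^ 2) ^ 2 * (3 / 2 * gX (r ^ 2) K) :=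
        mul_le_mul_of_nonneg_left (by linarith) (by positivity)
    _ ≤ _ := by linarith

/-- the check on a chain of cells ending at `3988` -/
def gchain : ℕ → List (ℕ × ℕ × ℕ) → Bool
  | a, [] => decide (3988 ≤ a)
  | a, p :: l => gcell a p.1 p.2.1 p.2.2 && gchain p.1 l

theorem gchain_sound {r : ℝ} (h0 : 0 < r) (h1 : r < 1) (hb : r ^ 2 < 3988 / 4096) :
    ∀ (l : List (ℕ × ℕ × ℕ)) (a : ℕ), gchain a l = true → (a : ℝ) / 4096 ≤ r ^ 2 →
      3 / 2 * (sig r * (log 2 - J r)) ≤ 1 - exp (-(3 / 2 * Cf r))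
  | [], a, h, ha => by
    simp only [gchain, decide_eq_true_eq] at h
    have : (3988 : ℝ) ≤ a := by exact_mod_cast h
    linarith
  | p :: l, a, h, ha => by
    simp only [gchain, Bool.and_eq_true] at h
    rcases le_total (r ^ 2) ((p.1 : ℝ) / 4096) with h2 | h2
    · exact gcell_sound h.1 h0 h1 ha h2
    · exact gchain_sound h0 h1 hb l p.1 h.2 h2

/-- the cells -/
def gcells : List (ℕ × ℕ × ℕ) :=
  [(62, 3, 736488), (124, 3, 738266), (186, 3, 740073), (248, 3, 741912), (310, 3, 743786), (372,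
   4, 745610), (434, 4, 747513), (496, 4, 749447), (558, 4, 751413), (620, 4, 753414), (682, 4,
   755451), (744, 4, 757527), (806, 4, 759646), (868, 4, 761810), (930, 5, 763775), (992, 5,
   765971), (1054, 5, 768209), (1116, 5, 770494), (1177, 5, 772599), (1238, 5, 774942), (1299, 5,
   777340), (1360, 5, 779797), (1421, 6, 781939), (1481, 6, 784185), (1541, 6, 786701), (1601, 6,
   789280), (1661, 6, 791926), (1720, 6, 794359), (1779, 6, 797103), (1838, 7, 799419), (1896, 7,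
   801922), (1954, 7, 804761), (2011, 7, 807356), (2068, 7, 810314), (2125, 7, 813373), (2181, 8,
   815530), (2237, 8, 818627), (2293, 8, 821835), (2348, 8, 824758), (2403, 8, 828143), (2457, 9,
   830467), (2510, 9, 833478), (2563, 9, 837001), (2615, 9, 840197), (2666, 9, 843456), (2717, 10,
   846319), (2768, 10, 850206), (2818, 11, 852879), (2867, 11, 856340), (2915, 11, 859885), (2962,
   11, 863527), (3008, 12, 866209), (3053, 12, 869897), (3098, 13, 873436), (3142, 13, 877335),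
   (3185, 14, 880372), (3227, 14, 884389), (3268, 14, 888563), (3308, 15, 891707), (3347, 16,
   894978), (3386, 17, 899438), (3423, 17, 902903), (3459, 18, 906439), (3494, 18, 911123), (3528,
   19, 914850), (3561, 20, 918712), (3593, 21, 922717), (3624, 22, 926874), (3653, 23, 929397),
   (3681, 24, 933522), (3708, 25, 937803), (3734, 27, 941195), (3759, 28, 945802), (3782, 29,
   948019), (3804, 31, 951399), (3825, 33, 954938), (3845, 35, 958618), (3863, 35, 960928), (3880,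
   38, 962929), (3897, 44, 966691), (3912, 43, 968598), (3926, 47, 969683), (3939, 50, 971486),
   (3950, 48, 971782), (3961, 55, 974007), (3971, 58, 974403), (3980, 59, 975733), (3988, 60,
   976260)]

theorem gcells_ok : gchain 0 gcells = true := by decide +kernel

theorem gH_tail : (9 / 10 : ℝ) ^ 2 * gH (9 / 10 : ℝ) 40 ≤ 8 / 5 := by
  have h : (9 / 10 : ℚ) ^ 2 * gH (9 / 10 : ℚ) 40 ≤ 8 / 5 := by decide +kernel
  have d := (Rat.cast_le (K := ℝ)).2 h
  push_cast [cast_gH] at d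
  exact d

theorem keyG (r : ℝ) (h0 : 0 < r) (h1 : r < 1) :
    3 / 2 * (sig r * (log 2 - J r)) ≤ 1 - exp (-(3 / 2 * Cf r)) := by
  rcases lt_or_ge (r ^ 2) (3988 / 4096) with hb | hb
  · exact gchain_sound h0 h1 hb gcells 0 gcells_ok (by simpa using sq_nonneg r)
  have hr : 9867 / 10000 ≤ r := by nlinarith
  have hA : 5 / 2 ≤ A r := by
    have h2 : exp 5 ≤ (1 + r) / (1 - r) := by
      have h3 : exp 5 = exp 1 ^ 5 := by rw [← exp_nat_mul]; norm_num
      have h4 : exp 1 ^ 5 ≤ 2.7182818286 ^ 5 := by gcongr; exact exp_one_lt_d9.le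
      rw [le_div_iff₀ (by linarith)]
      have h5 : exp 5 ≤ 149 := by rw [h3]; exact h4.trans (by norm_num)
      nlinarith
    have h3 := log_le_log (exp_pos 5) h2
    rw [log_exp, log_div (by linarith) (by linarith)] at h3
    unfold A; linarith
  have h5 : 0 < 1 - r ^ 2 := by nlinarith
  have e0 : log 2 - J r = (1 - r) * A r + (log 2 - log (1 + r)) := by unfold J A; ring
  have e1 : log 2 - log (1 + r) ≤ (1 - r) / (1 + r) := by
    rw [← log_div (by norm_num) (by linarith)]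
    refine (log_le_sub_one_of_pos (by positivity)).trans (le_of_eq ?_)
    field_simp
    ring
  have e2 : 0 ≤ log 2 - log (1 + r) := sub_nonneg.2 (log_le_log (by linarith) (by linarith))
  have e3 := sub_nonneg.2 (J_le h0 h1)
  have e4 := sig_nonneg h0 h1
  have e5 : sig r * (log 2 - J r) ≤ 3 / 5 := by
    have h6 : 1 - r ≠ 0 := by linarith
    calc sig r * (log 2 - J r) ≤ r / ((1 - r ^ 2) * A r) * ((1 - r) * A r + (1 - r) / (1 + r)) := by
          refine mul_le_mul (by unfold sig; linarith) (by linarith) e3 (by positivity)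
      _ = r / (1 + r) + r / (1 + r) ^ 2 / A r := by
          have : 1 - r ^ 2 = (1 - r) * (1 + r) := by ring
          rw [this]
          field_simp
      _ ≤ 1 / 2 + 1 / 4 / (5 / 2) := by
          gcongr ?_ + ?_ / ?_
          · rw [div_le_iff₀ (by linarith)]; linarith
          · rw [div_le_iff₀ (by positivity)]; nlinarith [sq_nonneg (1 - r)]
      _ = 3 / 5 := by norm_num
  have e6 : 8 / 5 ≤ 3 / 2 * xi r := by
    have : xi r = (2 - r) * A r - 2 * log 2 + 2 * (log 2 - log (1 + r)) := by unfold xi J A; ring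
    have h7 := log_two_lt_d9
    nlinarith
  have e8 : 3 / 2 * Cf r = 3 / 2 * xi r + 3 / 2 * (sig r * (log 2 - J r)) := by unfold Cf; ring
  have e7 : 0 ≤ 3 / 2 * (sig r * (log 2 - J r)) := by positivity
  rw [e8]
  refine fin_step e7 (G := 9 / 10) (by linarith) (by norm_num) 40 ?_
  have e9 : 0 ≤ gH (9 / 10 : ℝ) 40 := by unfold gH; positivity
  calc _ ≤ (9 / 10 : ℝ) ^ 2 * gH (9 / 10 : ℝ) 40 := by gcongr; linarith
    _ ≤ _ := gH_tail.trans e6

end Vale.Agent.P322
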