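import Vale.Agent.P322.Ind
import Vale.Agent.P322.Defs

/-! JOB F. From `famP`, `famU` (Ind.lean, may be used as given) to the conjecture. Basic.lean has the calculus facts
(`hasDerivAt_J`, `J_le_sq`, `sq_le_J`, `sig_pos`, `sig_le`, `continuous_J`, `le_of_deriv`).
`ρ = 1 - 2ε`, `s b = if b then -1 else 1`, `F x = s (f x)`, `T ρ y = Σ_x F x * Π_i (1 + ρ s(x i) s(y i))/2`
(the weights are nonnegative, sum to 1, positive for `ρ < 1`; `T 1 = F`; `avg (T ρ) = μ := avg F`).
Constant `f`: `mutInf = 0` (or `I = 0`). Nonconstant `f`: `|μ| < 1` and `|T ρ y| < 1` for `0 ≤ ρ < 1`.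
`I ρ = avg (J ∘ T ρ) - J μ` is continuous on `[0,1]`, and `ρ * I' ρ = En (T ρ)` on `(0,1)`, because
`ρ ∂/∂ρ (1+ρa)/2 = ((1+ρa)/2 - (1-ρa)/2)/2` gives `ρ ∂ T ρ y = Σ_i (T ρ y - T ρ (flip i y))/2` (`HasDerivAt.fun_finset_prod`).
Comparison lemma: `D` continuous on `[a,b]`, `D b ≤ 0`, differentiable on `(a,b)` with `0 < D t → 0 ≤ D' t`, then
`D a ≤ 0` (else let `t0 = sInf {t ∈ [a,b] | D t ≤ 0}`, `D t0 ≤ 0`, `D > 0` on `[a,t0)`, `le_of_deriv`).
Phase 1, `ρ ∈ [1/6,1]`: `v = 1-μ²`, `k = μ² log 2 - J μ ∈ [0, μ² (log 2 - 1/2)]`, `b ρ = ρ/4 + 21/20 ρ² - 3/10 ρ³`,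
`D = I - v J ρ - b ρ k`, `D 1 = 0`; `famP` at `r = ρ` (`Cf = xi + σ (log 2 - J)`, `xi = ρ A - 2 J`, `σ = sig ρ`) gives
`ρ D' ≥ (2+σ) D + ((2+σ) b - σ - ρ b') k`, and `(2+σ) b - σ - ρ b' = 2b - ρ b' - σ (1-b) ≥ 0` since
`2b - ρ b' = ρ (1/4 + 3/10 ρ²)`, `1 - b = (1-ρ)(1 + 3/4 ρ - 3/10 ρ²)`, `σ ≤ (2/3) ρ²/(1-ρ²)` and
`(1/4 + 3/10 ρ²)(1+ρ) ≥ (2/3) ρ (1 + 3/4 ρ - 3/10 ρ²)` on `[0,1]`. Then `b (log 2 - 1/2) ≤ ρ²/2 ≤ J ρ` for `ρ ≥ 1/6`
gives `I ρ ≤ J ρ`. Phase 2, `ρ ∈ [0,1/6]`: `D = I - J ρ`, `famU` gives `ρ D' ≥ (2+σ) D`.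
Final: `joint ε f u y = 2^{-n} (1 + s u * T ρ y)/2`, marginals `(1 + s u μ)/2` and `2^{-n}`, so
`mutInf * log 2 = I ρ` and `(1 - h2 ε) * log 2 = J (1-2ε)` (terms with `p = 0` vanish on both sides). -/

namespace Vale.Agent.P322

open Real Finset

namespace Od

noncomputable def s (b : Bool) : ℝ := if b then -1 else 1

noncomputable def ker {n : ℕ} (ρ : ℝ) (x y : Fin n → Bool) : ℝ :=
  ∏ i, (1 + ρ * (s (x i) * s (y i))) / 2

noncomputable def T {n : ℕ} (f : (Fin n → Bool) → Bool) (ρ : ℝ) (y : Fin n → Bool) : ℝ :=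
  ∑ x, s (f x) * ker ρ x y

noncomputable def mu {n : ℕ} (f : (Fin n → Bool) → Bool) : ℝ := avg fun x => s (f x)

noncomputable def II {n : ℕ} (f : (Fin n → Bool) → Bool) (ρ : ℝ) : ℝ :=
  avg (fun y => J (T f ρ y)) - J (mu f)

variable {n : ℕ}

theorem s_not (b : Bool) : s (!b) = -s b := by cases b <;> simp [s]

theorem ker_comm (ρ : ℝ) (x y : Fin n → Bool) : ker ρ x y = ker ρ y x := by
  unfold ker
  exact Finset.prod_congr rfl fun i _ => by rw [mul_comm (s (x i))]

theorem sum_ker (ρ : ℝ) (y : Fin n → Bool) : ∑ x, ker ρ x y = 1 := by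
  have h := Finset.prod_univ_sum (fun _ : Fin n => (univ : Finset Bool))
    (fun i b => (1 + ρ * (s b * s (y i))) / 2)
  rw [Fintype.piFinset_univ] at h
  unfold ker
  rw [← h]
  refine Finset.prod_eq_one fun i _ => ?_
  have a : s true = -1 := by simp [s]
  have b : s false = 1 := by simp [s]
  rw [Fintype.sum_bool, a, b]
  ring

theorem ker_nonneg {ρ : ℝ} (h0 : 0 ≤ ρ) (h1 : ρ ≤ 1) (x y : Fin n → Bool) : 0 ≤ ker ρ x y :=
  Finset.prod_nonneg fun i _ => by
    cases x i <;> cases y i <;> simp only [s] <;> norm_num <;> linarith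

theorem ker_pos {ρ : ℝ} (h0 : 0 ≤ ρ) (h1 : ρ < 1) (x y : Fin n → Bool) : 0 < ker ρ x y :=
  Finset.prod_pos fun i _ => by
    cases x i <;> cases y i <;> simp only [s] <;> norm_num <;> linarith

theorem ker_one (x y : Fin n → Bool) : ker 1 x y = if x = y then 1 else 0 := by
  unfold ker
  split_ifs with h
  · subst h
    refine Finset.prod_eq_one fun i _ => ?_
    cases x i <;> simp only [s] <;> norm_num
  · obtain ⟨i, hi⟩ := Function.ne_iff.1 h
    refine Finset.prod_eq_zero (Finset.mem_univ i) ?_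
    revert hi
    cases x i <;> cases y i <;> simp [s]

theorem T_one (f : (Fin n → Bool) → Bool) (y : Fin n → Bool) : T f 1 y = s (f y) := by
  simp [T, ker_one]

theorem two_pow_pos : (0 : ℝ) < 2 ^ n := by positivity

theorem avg_const (c : ℝ) : avg (fun _ : Fin n → Bool => c) = c := by
  unfold avg
  have := two_pow_pos (n := n)
  simp only [Finset.sum_const, Finset.card_univ, Fintype.card_fun, Fintype.card_bool,
    Fintype.card_fin, nsmul_eq_mul]
  push_cast
  field_simp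

theorem avg_T (f : (Fin n → Bool) → Bool) (ρ : ℝ) : avg (T f ρ) = mu f := by
  unfold mu avg T
  rw [Finset.sum_comm]
  congr 1
  refine Finset.sum_congr rfl fun x _ => ?_
  rw [← Finset.mul_sum]
  simp only [ker_comm ρ x, sum_ker, mul_one]

theorem one_add_T (f : (Fin n → Bool) → Bool) (ρ : ℝ) (u : Bool) (y : Fin n → Bool) :
    (1 + s u * T f ρ y) / 2 = ∑ x, if f x = u then ker ρ x y else 0 := by
  unfold T
  conv_lhs => rw [← sum_ker ρ y]
  rw [Finset.mul_sum, ← Finset.sum_add_distrib, Finset.sum_div]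
  refine Finset.sum_congr rfl fun x _ => ?_
  cases u <;> cases f x <;> simp [s]

theorem one_add_T_nonneg (f : (Fin n → Bool) → Bool) {ρ : ℝ} (h0 : 0 ≤ ρ) (h1 : ρ ≤ 1) (u : Bool)
    (y : Fin n → Bool) : 0 ≤ 1 + s u * T f ρ y := by
  have h := one_add_T f ρ u y
  have : 0 ≤ ∑ x, if f x = u then ker ρ x y else 0 :=
    Finset.sum_nonneg fun x _ => by split_ifs; exacts [ker_nonneg h0 h1 x y, le_rfl]
  linarith

theorem abs_T_lt (f : (Fin n → Bool) → Bool) (hf : ∀ u, ∃ x, f x = u) {ρ : ℝ} (h0 : 0 ≤ ρ)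
    (h1 : ρ < 1) (y : Fin n → Bool) : |T f ρ y| < 1 := by
  have h : ∀ u, 0 < 1 + s u * T f ρ y := by
    intro u
    have h := one_add_T f ρ u y
    obtain ⟨x, hx⟩ := hf u
    have : 0 < ∑ x, if f x = u then ker ρ x y else 0 :=
      Finset.sum_pos' (fun x _ => by split_ifs; exacts [(ker_pos h0 h1 x y).le, le_rfl])
        ⟨x, Finset.mem_univ _, by rw [if_pos hx]; exact ker_pos h0 h1 x y⟩
    linarith
  have a := h true
  have b := h false
  simp only [s] at a b
  norm_num at a b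
  exact abs_lt.2 ⟨by linarith, by linarith⟩

theorem abs_mu_le (f : (Fin n → Bool) → Bool) : |mu f| ≤ 1 := by
  have h : ∀ u, 0 ≤ 1 + s u * mu f := by
    intro u
    have a : avg (fun y => 1 + s u * T f 0 y) = 1 + s u * mu f := by
      rw [← avg_T f 0]
      conv_rhs => rw [← avg_const (n := n) 1]
      unfold avg
      rw [Finset.sum_add_distrib, ← Finset.mul_sum]
      ring
    rw [← a]
    exact div_nonneg (Finset.sum_nonneg fun y _ => one_add_T_nonneg f le_rfl zero_le_one u y)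
      two_pow_pos.le
  have a := h true
  have b := h false
  simp only [s] at a b
  norm_num at a b
  exact abs_le.2 ⟨by linarith, by linarith⟩

theorem hasDerivAt_ker {ρ : ℝ} (h : ρ ≠ 0) (x y : Fin n → Bool) :
    HasDerivAt (fun ρ => ker ρ x y) ((∑ i, (ker ρ x y - ker ρ x (flip i y)) / 2) / ρ) ρ := by
  have d : ∀ i ∈ (univ : Finset (Fin n)),
      HasDerivAt (fun ρ : ℝ => (1 + ρ * (s (x i) * s (y i))) / 2) (s (x i) * s (y i) / 2) ρ := by
    intro i _
    simpa using (((hasDerivAt_id ρ).mul_const (s (x i) * s (y i))).const_add 1).div_const 2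
  refine (HasDerivAt.fun_finset_prod d).congr_deriv ?_
  rw [Finset.sum_div]
  refine Finset.sum_congr rfl fun i _ => ?_
  unfold ker
  rw [← Finset.mul_prod_erase univ _ (Finset.mem_univ i),
    ← Finset.mul_prod_erase univ (fun j => (1 + ρ * (s (x j) * s (flip i y j))) / 2)
      (Finset.mem_univ i)]
  have e : ∏ j ∈ univ.erase i, (1 + ρ * (s (x j) * s (flip i y j))) / 2
      = ∏ j ∈ univ.erase i, (1 + ρ * (s (x j) * s (y j))) / 2 :=
    Finset.prod_congr rfl fun j hj => by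
      rw [flip, Function.update_of_ne (Finset.ne_of_mem_erase hj)]
  rw [e, flip, Function.update_self, s_not, smul_eq_mul]
  field_simp
  ring

theorem hasDerivAt_T (f : (Fin n → Bool) → Bool) {ρ : ℝ} (h : ρ ≠ 0) (y : Fin n → Bool) :
    HasDerivAt (fun ρ => T f ρ y) ((∑ i, (T f ρ y - T f ρ (flip i y)) / 2) / ρ) ρ := by
  unfold T
  refine (HasDerivAt.fun_sum fun x (_ : x ∈ univ) =>
    (hasDerivAt_ker h x y).const_mul (s (f x))).congr_deriv ?_
  simp only [← Finset.sum_sub_distrib, Finset.sum_div, Finset.mul_sum]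
  rw [Finset.sum_comm]
  exact Finset.sum_congr rfl fun i _ => Finset.sum_congr rfl fun x _ => by ring

theorem hasDerivAt_II (f : (Fin n → Bool) → Bool) (hf : ∀ u, ∃ x, f x = u) {ρ : ℝ} (h0 : 0 < ρ)
    (h1 : ρ < 1) : HasDerivAt (II f) (En (T f ρ) / ρ) ρ := by
  have d := ((HasDerivAt.fun_sum fun y (_ : y ∈ univ) =>
    (hasDerivAt_J (abs_T_lt f hf h0.le h1 y)).comp ρ (hasDerivAt_T f h0.ne' y)).div_const
      ((2 : ℝ) ^ n)).sub_const (J (mu f))
  refine d.congr_deriv ?_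
  unfold En avg
  simp only [Finset.sum_div, Finset.mul_sum]
  rw [Finset.sum_comm]
  exact Finset.sum_congr rfl fun i _ => Finset.sum_congr rfl fun x _ => by ring

theorem continuous_II (f : (Fin n → Bool) → Bool) : Continuous (II f) := by
  have hJ := continuous_J
  unfold II avg T ker
  fun_prop

theorem compare {D D' : ℝ → ℝ} {a b : ℝ} (hab : a ≤ b) (hc : Continuous D) (hb : D b ≤ 0)
    (hd : ∀ t, a < t → t < b → HasDerivAt D (D' t) t)
    (hp : ∀ t, a < t → t < b → 0 < D t → 0 ≤ D' t) : D a ≤ 0 := by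
  have hcl : IsClosed (Set.Icc a b ∩ {t | D t ≤ 0}) :=
    isClosed_Icc.inter (isClosed_le hc continuous_const)
  have hne : (Set.Icc a b ∩ {t | D t ≤ 0}).Nonempty := ⟨b, ⟨hab, le_rfl⟩, hb⟩
  have hbd : BddBelow (Set.Icc a b ∩ {t | D t ≤ 0}) := ⟨a, fun t ht => ht.1.1⟩
  obtain ⟨⟨m1, m2⟩, m3⟩ := hcl.csInf_mem hne hbd
  refine le_trans (le_of_deriv (f' := D') m1 hc.continuousOn
    (fun t h1 h2 => hd t h1 (lt_of_lt_of_le h2 m2)) fun t h1 h2 => ?_) m3
  refine hp t h1 (lt_of_lt_of_le h2 m2) (lt_of_not_ge fun h => ?_)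
  exact absurd (csInf_le hbd ⟨⟨h1.le, (lt_of_lt_of_le h2 m2).le⟩, h⟩) (not_le.2 h2)

theorem coef {t : ℝ} (h0 : 0 < t) (h1 : t < 1) :
    0 ≤ (2 + sig t) * (t / 4 + 21 / 20 * t ^ 2 - 3 / 10 * t ^ 3) - sig t
      - t * (1 / 4 + 21 / 10 * t - 9 / 10 * t ^ 2) := by
  have a := sig_le h0 h1
  have p := one_sub_sq_pos (abs_lt_of h0.le h1)
  rw [le_div_iff₀ p] at a
  have q : 0 ≤ 1 + 3 / 4 * t - 3 / 10 * t ^ 2 := by nlinarith
  have b := mul_le_mul_of_nonneg_right a q
  have c : 2 / 3 * t * (1 + 3 / 4 * t - 3 / 10 * t ^ 2) ≤ (1 / 4 + 3 / 10 * t ^ 2) * (1 + t) := by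
    nlinarith [sq_nonneg (t - 1 / 2), mul_nonneg h0.le (sq_nonneg (t - 3 / 5)), sq_nonneg t]
  have d := mul_le_mul_of_nonneg_left c h0.le
  have e : 0 < 1 + t := by linarith
  refine le_of_mul_le_mul_right ?_ e
  nlinarith

theorem phase1 (f : (Fin n → Bool) → Bool) (hf : ∀ u, ∃ x, f x = u) {ρ : ℝ} (h0 : 1 / 6 ≤ ρ)
    (h1 : ρ ≤ 1) : II f ρ ≤ J ρ := by
  have m1 := abs_mu_le f
  have k0 := J_le_sq m1
  have k1 := sq_le_J m1
  set μ := mu f with hμ
  set k := μ ^ 2 * log 2 - J μ with hk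
  have key := compare (D := fun t => II f t - (1 - μ ^ 2) * J t
      - (t / 4 + 21 / 20 * t ^ 2 - 3 / 10 * t ^ 3) * k)
    (D' := fun t => En (T f t) / t - (1 - μ ^ 2) * A t
      - (1 / 4 + 21 / 10 * t - 9 / 10 * t ^ 2) * k) h1
    (by
      have := continuous_II f
      have := continuous_J
      fun_prop)
    (by
      have e : avg (fun y => J (T f 1 y)) = log 2 := by
        rw [← avg_const (n := n) (log 2)]
        congr 1
        funext y
        rw [T_one]
        cases f y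
        · simp [s, J_one]
        · simp [s, J_neg, J_one]
      simp only [II, e, J_one, ← hμ, hk]
      apply le_of_eq
      ring)
    (fun t a b => by
      have t0 : 0 < t := by linarith
      refine (((hasDerivAt_II f hf t0 b).sub
        ((hasDerivAt_J (abs_lt_of t0.le b)).const_mul (1 - μ ^ 2))).sub
        (((((hasDerivAt_id t).div_const 4).add (((hasDerivAt_id t).pow 2).const_mul (21 / 20))).sub
          (((hasDerivAt_id t).pow 3).const_mul (3 / 10))).mul_const k)).congr_deriv ?_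
      simp only [id]
      push_cast
      ring)
    (fun t a b c => by
      have t0 : 0 < t := by linarith
      have p := famP (T f t) (abs_T_lt f hf t0.le b) t t0 b
      rw [avg_T, ← hμ] at p
      have q := mul_nonneg (coef t0 b) (by linarith : 0 ≤ k)
      have r := mul_pos (by linarith [sig_pos t0 b] : 0 < 2 + sig t) c
      refine le_of_mul_le_mul_right ?_ t0
      have e : (En (T f t) / t - (1 - μ ^ 2) * A t - (1 / 4 + 21 / 10 * t - 9 / 10 * t ^ 2) * k) * t
          = En (T f t) - (1 - μ ^ 2) * A t * t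
            - (1 / 4 + 21 / 10 * t - 9 / 10 * t ^ 2) * k * t := by
        field_simp
      rw [e]
      simp only [II, ← hμ, Cf, xi, hk] at p q r ⊢
      nlinarith)
  have j := sq_le_J (t := ρ) (abs_le.2 ⟨by linarith, h1⟩)
  have l := log_two_lt_d9
  have b0 : 0 ≤ ρ / 4 + 21 / 20 * ρ ^ 2 - 3 / 10 * ρ ^ 3 := by nlinarith [sq_nonneg ρ]
  have b1 : ρ / 4 + 21 / 20 * ρ ^ 2 - 3 / 10 * ρ ^ 3 ≤ 51 / 20 * ρ ^ 2 := by
    nlinarith [pow_nonneg (by linarith : 0 ≤ ρ) 3]
  have k2 : k ≤ μ ^ 2 * (10 / 51) := by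
    rw [hk]
    nlinarith [sq_nonneg μ]
  have c := mul_le_mul b1 k2 (by linarith) (by positivity)
  have d := mul_le_mul_of_nonneg_left j (sq_nonneg μ)
  nlinarith

theorem phase2 (f : (Fin n → Bool) → Bool) (hf : ∀ u, ∃ x, f x = u) {ρ : ℝ} (h0 : 0 ≤ ρ)
    (h1 : ρ ≤ 1 / 6) : II f ρ ≤ J ρ := by
  have key := compare (D := fun t => II f t - J t) (D' := fun t => En (T f t) / t - A t) h1
    ((continuous_II f).sub continuous_J)
    (by have := phase1 f hf (ρ := 1 / 6) le_rfl (by norm_num); linarith)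
    (fun t a b => (hasDerivAt_II f hf (by linarith) (by linarith)).sub
      (hasDerivAt_J (abs_lt_of (by linarith) (by linarith))))
    (fun t a b c => by
      have t0 : 0 < t := by linarith
      have t1 : t < 1 := by linarith
      have p := famU (T f t) (abs_T_lt f hf t0.le t1) t t0 b.le
      rw [avg_T] at p
      have r := mul_pos (by linarith [sig_pos t0 t1] : 0 < 2 + sig t) c
      refine le_of_mul_le_mul_right ?_ t0
      have e : (En (T f t) / t - A t) * t = En (T f t) - A t * t := by field_simp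
      rw [e]
      simp only [II, xi] at p r ⊢
      nlinarith)
  linarith

theorem II_le (f : (Fin n → Bool) → Bool) {ρ : ℝ} (h0 : 0 ≤ ρ) (h1 : ρ ≤ 1) : II f ρ ≤ J ρ := by
  by_cases hf : ∀ u, ∃ x, f x = u
  · rcases le_total ρ (1 / 6) with h | h
    · exact phase2 f hf h0 h
    · exact phase1 f hf h h1
  · push Not at hf
    obtain ⟨u, hu⟩ := hf
    have e : ∀ x, f x = !u := fun x => by
      have := hu x
      revert this
      cases f x <;> cases u <;> simp
    have a : ∀ y, T f ρ y = s (!u) := fun y => by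
      simp only [T, e, ← Finset.mul_sum, sum_ker, mul_one]
    have j := sq_le_J (t := ρ) (abs_le.2 ⟨by linarith, h1⟩)
    simp only [II, mu, a, e, avg_const, sub_self]
    nlinarith [sq_nonneg ρ]

theorem joint_eq (ε : ℝ) (f : (Fin n → Bool) → Bool) (u : Bool) (y : Fin n → Bool) :
    joint ε f u y = (1 + s u * T f (1 - 2 * ε) y) / 2 / 2 ^ n := by
  rw [one_add_T, Finset.sum_div]
  unfold joint
  refine Finset.sum_congr rfl fun x _ => ?_
  rw [Finset.sum_eq_single (fun i => xor (x i) (y i))]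
  · have e : (fun i => xor (x i) (xor (x i) (y i))) = y := by
      funext i
      cases x i <;> cases y i <;> rfl
    simp only [e, and_true]
    split_ifs
    · unfold wt ker
      rw [one_div, inv_pow, mul_comm, div_eq_mul_inv]
      congr 1
      refine Finset.prod_congr rfl fun i _ => ?_
      beta_reduce
      cases x i <;> cases y i <;> simp [s] <;> ring
    · simp
  · intro z _ hz
    rw [if_neg]
    rintro ⟨_, rfl⟩
    apply hz
    funext i
    beta_reduce
    cases x i <;> cases z i <;> rfl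
  · simp

theorem avg_lin (a b : ℝ) (g : (Fin n → Bool) → ℝ) : avg (fun y => a + b * g y) = a + b * avg g := by
  conv_rhs => rw [← avg_const (n := n) a]
  unfold avg
  rw [Finset.sum_add_distrib, ← Finset.mul_sum]
  ring

theorem mutInf_eq {ε : ℝ} (h0 : 0 ≤ ε) (h1 : ε ≤ 1 / 2) (f : (Fin n → Bool) → Bool) :
    mutInf (joint ε f) * log 2 = II f (1 - 2 * ε) := by
  set ρ := 1 - 2 * ε with hρ
  have r0 : 0 ≤ ρ := by linarith
  have r1 : ρ ≤ 1 := by linarith
  have l2 : log 2 ≠ 0 := (log_pos one_lt_two).ne'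
  have p := two_pow_pos (n := n)
  have m0 : ∀ u, ∑ y, (1 + s u * T f ρ y) = (1 + s u * mu f) * 2 ^ n := by
    intro u
    have := avg_lin 1 (s u) (T f ρ)
    rw [avg_T] at this
    rw [← this]
    unfold avg
    field_simp
  have m1 : ∀ u, ∑ y, joint ε f u y = (1 + s u * mu f) / 2 := by
    intro u
    simp only [joint_eq, ← Finset.sum_div, ← hρ, m0]
    field_simp
  have m2 : ∀ y, ∑ u, joint ε f u y = 1 / 2 ^ n := by
    intro y
    simp only [joint_eq, Fintype.sum_bool, s]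
    norm_num
    field_simp
    ring
  have t : ∀ u y, joint ε f u y * logb 2 (joint ε f u y / ((1 + s u * mu f) / 2 * (1 / 2 ^ n))) * log 2
      = ((1 + s u * T f ρ y) * log (1 + s u * T f ρ y) / 2
        - (1 + s u * T f ρ y) * (log (1 + s u * mu f) / 2)) / 2 ^ n := by
    intro u y
    rw [joint_eq, ← hρ]
    by_cases h : 1 + s u * T f ρ y = 0
    · simp [h]
    have a : 0 < 1 + s u * T f ρ y := lt_of_le_of_ne (one_add_T_nonneg f r0 r1 u y) (Ne.symm h)
    have b : 0 < (1 + s u * mu f) * 2 ^ n := by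
      rw [← m0]
      exact Finset.sum_pos' (fun y _ => one_add_T_nonneg f r0 r1 u y) ⟨y, Finset.mem_univ _, a⟩
    have c : 0 < 1 + s u * mu f := (mul_pos_iff_of_pos_right p).1 b
    have e : (1 + s u * T f ρ y) / 2 / 2 ^ n / ((1 + s u * mu f) / 2 * (1 / 2 ^ n))
        = (1 + s u * T f ρ y) / (1 + s u * mu f) := by field_simp
    rw [e, logb, log_div h c.ne']
    field_simp
  unfold mutInf
  simp only [m1, m2, Finset.sum_mul, t]
  simp only [← Finset.sum_div, Finset.sum_sub_distrib, ← Finset.sum_mul, m0]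
  unfold II avg J
  simp only [Fintype.sum_bool, s, ← Finset.sum_div, Finset.sum_add_distrib]
  norm_num
  simp only [← sub_eq_add_neg]
  field_simp
  ring

theorem h2_eq {ε : ℝ} (h0 : 0 ≤ ε) (h1 : ε ≤ 1 / 2) : (1 - h2 ε) * log 2 = J (1 - 2 * ε) := by
  have l2 : log 2 ≠ 0 := (log_pos one_lt_two).ne'
  have e1 : 1 + (1 - 2 * ε) = 2 * (1 - ε) := by ring
  have e2 : 1 - (1 - 2 * ε) = 2 * ε := by ring
  unfold J h2 logb
  rw [e1, e2, log_mul two_ne_zero (by linarith : 1 - ε ≠ 0)]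
  rcases h0.eq_or_lt with h | h
  · subst h
    simp
  · rw [log_mul two_ne_zero h.ne']
    field_simp
    ring

end Od

theorem courtadeKumar (n : ℕ) (f : (Fin n → Bool) → Bool) (ε : ℝ) (h0 : 0 ≤ ε) (h1 : ε ≤ 1 / 2) :
    mutInf (joint ε f) ≤ 1 - h2 ε := by
  refine le_of_mul_le_mul_right ?_ (log_pos one_lt_two)
  rw [Od.mutInf_eq h0 h1, Od.h2_eq h0 h1]
  exact Od.II_le f (by linarith) (by linarith)

end Vale.Agent.P322
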