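import Vale.Agent.P322.Shape
import Vale.Agent.P322.KeyG

/-! Two-point inequalities and the admissible families. -/

namespace Vale.Agent.P322

open Real Set

theorem pair {a b : ℝ} (ha : |a| < 1) (hb : |b| < 1) {c d : ℝ} (hc : c = (a + b) / 2) (hd : d = |a - b| / 2) :
    0 ≤ d ∧ d < 1 + c ∧ d < 1 - c ∧
    (J a + J b) / 2 - J c = (1 + c) / 2 * J (d / (1 + c)) + (1 - c) / 2 * J (d / (1 - c)) ∧
    (a - b) * (A a - A b) / 4 - 2 * ((J a + J b) / 2 - J c)
      = (1 + c) / 2 * xi (d / (1 + c)) + (1 - c) / 2 * xi (d / (1 - c)) := by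
  obtain ⟨a1, a2⟩ := abs_lt.1 ha
  obtain ⟨b1, b2⟩ := abs_lt.1 hb
  have h0 : 0 ≤ d := by rw [hd]; positivity
  have h1 : d < 1 + c := by
    rw [hd, hc]; rcases abs_choice (a - b) with h | h <;> rw [h] <;> linarith
  have h2 : d < 1 - c := by
    rw [hd, hc]; rcases abs_choice (a - b) with h | h <;> rw [h] <;> linarith
  obtain ⟨e1, e2⟩ := two_point h1 h2 h0
  have p1 : 0 < 1 + c := by linarith
  have p2 : 0 < 1 - c := by linarith
  have key : (J a + J b) / 2 = (J (c + d) + J (c - d)) / 2 ∧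
      (a - b) * (A a - A b) / 4 = d * (A (c + d) - A (c - d)) / 2 := by
    rcases abs_choice (a - b) with h | h
    · have x1 : c + d = a := by rw [hc, hd, h]; ring
      have x2 : c - d = b := by rw [hc, hd, h]; ring
      rw [x1, x2, hd, h]; constructor <;> ring
    · have x1 : c + d = b := by rw [hc, hd, h]; ring
      have x2 : c - d = a := by rw [hc, hd, h]; ring
      rw [x1, x2, hd, h]; constructor <;> ring
  refine ⟨h0, h1, h2, by rw [key.1, e1], ?_⟩
  rw [key.1, key.2, e1, e2]; unfold xi; field_simp; ring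

def Pt (η C : ℝ) : Prop := ∀ a b : ℝ, |a| < 1 → |b| < 1 →
  2 * ((J a + J b) / 2 - J ((a + b) / 2)) - η * (log 2 - (J a + J b) / 2) + C * (1 - ((a + b) / 2) ^ 2)
    ≤ (a - b) * (A a - A b) / 4

theorem mid_lt {a b : ℝ} (ha : |a| < 1) (hb : |b| < 1) : |(a + b) / 2| < 1 := by
  obtain ⟨a1, a2⟩ := abs_lt.1 ha
  obtain ⟨b1, b2⟩ := abs_lt.1 hb
  exact abs_lt.2 ⟨by linarith, by linarith⟩

theorem Pt.mono {η C C' : ℝ} (h : Pt η C) (hC : C' ≤ C) : Pt η C' := by
  intro a b ha hb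
  have := h a b ha hb
  have h2 := one_sub_sq_pos (mid_lt ha hb)
  nlinarith

theorem pt_zero : Pt 0 0 := by
  intro a b ha hb
  obtain ⟨h0, h1, h2, -, e2⟩ := pair ha hb rfl rfl
  set c := (a + b) / 2
  set d := |a - b| / 2
  have p1 : 0 < 1 + c := by linarith
  have p2 : 0 < 1 - c := by linarith
  have x1 := xi_nonneg (div_nonneg h0 p1.le) ((div_lt_one p1).2 h1)
  have x2 := xi_nonneg (div_nonneg h0 p2.le) ((div_lt_one p2).2 h2)
  nlinarith [mul_nonneg p1.le x1, mul_nonneg p2.le x2]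

theorem pt_exact {r : ℝ} (hr0 : 0 < r) (hr1 : r < 1) : Pt (sig r) (Cf r) := by
  intro a b ha hb
  obtain ⟨h0, h1, h2, e1, e2⟩ := pair ha hb rfl rfl
  have hc := mid_lt ha hb
  set c := (a + b) / 2
  set d := |a - b| / 2
  have p1 : 0 < 1 + c := by linarith
  have p2 : 0 < 1 - c := by linarith
  have x1 := G_bound hr0 hr1 _ (div_nonneg h0 p1.le) ((div_lt_one p1).2 h1)
  have x2 := G_bound hr0 hr1 _ (div_nonneg h0 p2.le) ((div_lt_one p2).2 h2)
  have hK := Kf_nonneg hr0 hr1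
  have hs := sig_pos hr0 hr1
  have hJ := J_le_sq hc.le
  have hw := one_sub_sq_pos hc
  have e3 : (1 + c) / 2 * (2 * (d / (1 + c)) / r - (d / (1 + c)) ^ 2 / r ^ 2)
      + (1 - c) / 2 * (2 * (d / (1 - c)) / r - (d / (1 - c)) ^ 2 / r ^ 2)
      = (1 - c ^ 2) - ((1 - c ^ 2) - d / r) ^ 2 / (1 - c ^ 2) := by
    have : 1 - c ^ 2 = (1 + c) * (1 - c) := by ring
    rw [this]; field_simp; ring
  have e4 : 0 ≤ ((1 - c ^ 2) - d / r) ^ 2 / (1 - c ^ 2) := by positivity
  have e5 : Cf r = sig r * log 2 - Kf r := by unfold Cf Kf; ring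
  have y1 := mul_le_mul_of_nonneg_left x1 (by positivity : 0 ≤ (1 + c) / 2)
  have y2 := mul_le_mul_of_nonneg_left x2 (by positivity : 0 ≤ (1 - c) / 2)
  have y3 : (1 + c) / 2 * (Kf r * (2 * (d / (1 + c)) / r - (d / (1 + c)) ^ 2 / r ^ 2))
      + (1 - c) / 2 * (Kf r * (2 * (d / (1 - c)) / r - (d / (1 - c)) ^ 2 / r ^ 2)) ≤ Kf r * (1 - c ^ 2) := by
    have := mul_le_mul_of_nonneg_left (e3.le.trans (sub_le_self _ e4)) hK
    linarith
  have y4 := mul_le_mul_of_nonneg_left hJ hs.le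
  have y5 : sig r * ((J a + J b) / 2 - J c)
      = (1 + c) / 2 * (sig r * J (d / (1 + c))) + (1 - c) / 2 * (sig r * J (d / (1 - c))) := by rw [e1]; ring
  rw [e5]; nlinarith

theorem pt_fenchel {η K : ℝ} (h : ∀ t, 0 ≤ t → t < 1 → η * J t - xi t ≤ K) {a b : ℝ} (ha : |a| < 1)
    (hb : |b| < 1) : (2 + η) * ((J a + J b) / 2 - J ((a + b) / 2)) - K ≤ (a - b) * (A a - A b) / 4 := by
  obtain ⟨h0, h1, h2, e1, e2⟩ := pair ha hb rfl rfl
  set c := (a + b) / 2
  set d := |a - b| / 2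
  have p1 : 0 < 1 + c := by linarith
  have p2 : 0 < 1 - c := by linarith
  have x1 := h _ (div_nonneg h0 p1.le) ((div_lt_one p1).2 h1)
  have x2 := h _ (div_nonneg h0 p2.le) ((div_lt_one p2).2 h2)
  have y1 := mul_le_mul_of_nonneg_left x1 (by positivity : 0 ≤ (1 + c) / 2)
  have y2 := mul_le_mul_of_nonneg_left x2 (by positivity : 0 ≤ (1 - c) / 2)
  have y5 : η * ((J a + J b) / 2 - J c)
      = (1 + c) / 2 * (η * J (d / (1 + c))) + (1 - c) / 2 * (η * J (d / (1 - c))) := by rw [e1]; ring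
  nlinarith

theorem star {F G : ℝ → ℝ} {s r : ℝ} (h0 : 0 < s) (hs : s ≤ r) (h1 : r < 1)
    (hF : ∀ t, s ≤ t → t ≤ r → HasDerivAt F (sig1 t * G t) t) (hG : ∀ t, s ≤ t → t ≤ r → G t * sig t ≤ F t) :
    F r / sig r ≤ F s / sig s := by
  have := le_of_deriv' (f := fun t => -(F t / sig t)) (f' := fun t => sig1 t * (F t - G t * sig t) / sig t ^ 2) hs
    (fun x hx1 hx2 => by
      have hp := sig_pos (r := x) (by linarith) (by linarith)
      refine (((hF x hx1 hx2).div (hasDerivAt_sig (by linarith) (by linarith)) hp.ne').neg).congr_deriv ?_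
      field_simp; ring)
    (fun x hx1 hx2 => by
      have := sig1_nonneg (r := x) (by linarith) (by linarith)
      have := sub_nonneg.2 (hG x hx1.le hx2.le)
      positivity)
  linarith

theorem sig_ivt {r a : ℝ} (h0 : 0 < r) (h1 : r < 1) (ha0 : 0 < a) (ha : a ≤ sig r) :
    ∃ s, 0 < s ∧ s ≤ r ∧ sig s = a := by
  obtain ⟨e, e0, e1, e2⟩ : ∃ e, 0 < e ∧ e ≤ r ∧ sig e ≤ a := by
    refine ⟨min r (min (1 / 2) a), by positivity, min_le_left _ _, ?_⟩
    set e := min r (min (1 / 2) a)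
    have e0 : 0 < e := by positivity
    have e1 : e ≤ 1 / 2 := (min_le_right _ _).trans (min_le_left _ _)
    have e2 : e ≤ a := (min_le_right _ _).trans (min_le_right _ _)
    refine (sig_le e0 (by linarith)).trans ?_
    rw [div_le_iff₀ (by nlinarith)]
    have : e ^ 2 ≤ 1 / 4 := by nlinarith
    nlinarith
  have hc : ContinuousOn sig (Icc e r) := fun t ht =>
    (hasDerivAt_sig (by linarith [ht.1]) (by linarith [ht.2])).continuousAt.continuousWithinAt
  obtain ⟨s, hs, hs2⟩ := intermediate_value_Icc e1 hc ⟨e2, ha⟩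
  exact ⟨s, by linarith [hs.1], hs.2, hs2⟩

theorem hasDerivAt_Cf {r : ℝ} (h0 : 0 < r) (h1 : r < 1) : HasDerivAt Cf (sig1 r * (log 2 - J r)) r := by
  have h := abs_lt_of h0.le h1
  refine ((hasDerivAt_xi h).add ((hasDerivAt_sig h0 h1).mul ((hasDerivAt_J h).const_sub (log 2)))).congr_deriv ?_
  rw [← sig_mul_A h0 h1]; ring

theorem hasDerivAt_Kf {r : ℝ} (h0 : 0 < r) (h1 : r < 1) : HasDerivAt Kf (sig1 r * J r) r := by
  have h := abs_lt_of h0.le h1
  refine (((hasDerivAt_sig h0 h1).mul (hasDerivAt_J h)).sub (hasDerivAt_xi h)).congr_deriv ?_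
  rw [← sig_mul_A h0 h1]; ring

def Adms (σ Z : ℝ) : Prop :=
  0 ≤ Z ∧ ∀ θ, 0 ≤ θ → θ ≤ 1 → Pt (θ * σ) (log (1 + θ * Z) / (3 / 2))

theorem Adms.scale {σ Z : ℝ} (h : Adms σ Z) {φ : ℝ} (h0 : 0 ≤ φ) (h1 : φ ≤ 1) : Adms (φ * σ) (φ * Z) := by
  refine ⟨mul_nonneg h0 h.1, fun θ t0 t1 => ?_⟩
  have := h.2 (θ * φ) (mul_nonneg t0 h0) (by nlinarith)
  rwa [mul_assoc, mul_assoc] at this

theorem Cf_nonneg {r : ℝ} (h0 : 0 < r) (h1 : r < 1) : 0 ≤ Cf r := by
  have := xi_nonneg h0.le h1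
  have h2 := sig_pos h0 h1
  have h3 := J_le_sq (abs_lt_of h0.le h1).le
  have h4 : 0 < log 2 := log_pos (by norm_num)
  have h5 : r ^ 2 * log 2 ≤ log 2 := by nlinarith [mul_pos h0 h4]
  unfold Cf; nlinarith

theorem adm_top {r : ℝ} (h0 : 0 < r) (h1 : r < 1) : Adms (sig r) (exp (3 / 2 * Cf r) - 1) := by
  have hZ : 0 ≤ exp (3 / 2 * Cf r) - 1 := by
    have := Cf_nonneg h0 h1
    have := add_one_le_exp (3 / 2 * Cf r); linarith
  refine ⟨hZ, fun θ t0 t1 => ?_⟩
  rcases t0.eq_or_lt with h | h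
  · rw [← h]; simpa using pt_zero
  have hs := sig_pos h0 h1
  obtain ⟨s, s0, s1, s2⟩ := sig_ivt h0 h1 (mul_pos h hs) (by nlinarith)
  have st := star (F := fun t => exp (3 / 2 * Cf t) - 1) (G := fun t => 3 / 2 * exp (3 / 2 * Cf t) * (log 2 - J t))
    s0 s1 h1
    (fun t a1 a2 => by
      refine ((((hasDerivAt_Cf (by linarith) (by linarith)).const_mul (3 / 2)).exp).sub_const 1).congr_deriv ?_
      ring)
    (fun t a1 a2 => by
      have k := keyG t (by linarith) (by linarith)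
      have e := exp_pos (3 / 2 * Cf t)
      have k2 := mul_le_mul_of_nonneg_left k e.le
      have k3 : exp (3 / 2 * Cf t) * exp (-(3 / 2 * Cf t)) = 1 := by rw [← exp_add, add_neg_cancel, exp_zero]
      linarith)
  rw [← s2]
  refine (pt_exact s0 (by linarith)).mono ?_
  rw [s2, div_le_div_iff₀ hs (mul_pos h hs)] at st
  have h3 : 1 + θ * (exp (3 / 2 * Cf r) - 1) ≤ exp (3 / 2 * Cf s) := by
    have : θ * (exp (3 / 2 * Cf r) - 1) ≤ exp (3 / 2 * Cf s) - 1 := by
      apply le_of_mul_le_mul_right _ hs; linarith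
    linarith
  have h4 := log_le_log (by positivity) h3
  rw [log_exp] at h4
  rw [div_le_iff₀ (by norm_num)]; linarith

/-- Fenchel-type bound for the low-correlation family -/
theorem fenchel {r : ℝ} (h0 : 0 < r) (h1 : r ≤ 1 / 6) {a : ℝ} (a0 : 0 ≤ a) (a1 : a ≤ sig r) (t : ℝ)
    (t0 : 0 ≤ t) (t1 : t < 1) :
    a * J t - xi t ≤ log 2 * a ^ 2 / 2 + (Kf r - log 2 * sig r ^ 2 / 2) / sig r * a := by
  rcases a0.eq_or_lt with h | h
  · rw [← h]; have := xi_nonneg t0 t1; simpa using this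
  obtain ⟨s, s0, s1, s2⟩ := sig_ivt h0 (by linarith) h a1
  have st := star (F := fun t => -(Kf t - log 2 * sig t ^ 2 / 2)) (G := fun t => -(J t - log 2 * sig t))
    s0 s1 (by linarith)
    (fun t b1 b2 => by
      refine (((hasDerivAt_Kf (by linarith) (by linarith)).sub
        ((((hasDerivAt_sig (by linarith) (by linarith)).pow 2).const_mul (log 2)).div_const 2)).neg).congr_deriv ?_
      simp; ring)
    (fun t b1 b2 => by
      have t0 : 0 < t := by linarith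
      have c1 := xi_ge t0.le (by linarith)
      have c2 := sig_le t0 (by linarith)
      have c3 := sig_pos t0 (by linarith)
      have c4 : t ^ 2 ≤ 1 / 36 := by nlinarith
      have c5 : sig t ≤ 24 / 35 * t ^ 2 := by
        refine c2.trans ?_
        rw [div_le_iff₀ (by linarith)]; nlinarith [sq_nonneg t]
      have c6 : sig t ^ 2 ≤ (24 / 35 * t ^ 2) ^ 2 := pow_le_pow_left₀ c3.le c5 2
      have c7 := log_two_lt_d9
      have c8 : log 2 * sig t ^ 2 ≤ 0.7 * (24 / 35 * t ^ 2) ^ 2 :=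
        mul_le_mul (by linarith) c6 (sq_nonneg _) (by norm_num)
      unfold Kf; nlinarith [pow_pos t0 4])
  have g := G_bound s0 (by linarith) t t0 t1
  have hK := Kf_nonneg s0 (by linarith)
  have g2 : 2 * t / s - t ^ 2 / s ^ 2 ≤ 1 := by
    have : 2 * t / s - t ^ 2 / s ^ 2 = 1 - (1 - t / s) ^ 2 := by field_simp; ring
    rw [this]; nlinarith [sq_nonneg (1 - t / s)]
  have g3 := mul_le_mul_of_nonneg_left g2 hK
  rw [s2] at st g
  rw [neg_div, neg_div, neg_le_neg_iff, div_le_iff₀ h] at st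
  linarith

end Vale.Agent.P322
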