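import Vale.Agent.P322.Basic

/-! Shape lemma and the one-variable inequalities that come from it. -/

namespace Vale.Agent.P322

open Real Set

theorem mvt {f f' : ℝ → ℝ} {a b : ℝ} (hab : a < b) (hd : ∀ t, a ≤ t → t ≤ b → HasDerivAt f (f' t) t) :
    ∃ c, a < c ∧ c < b ∧ f b - f a = f' c * (b - a) := by
  obtain ⟨c, hc1, hc2⟩ := exists_hasDerivAt_eq_slope f f' hab
    (fun t ht => (hd t ht.1 ht.2).continuousAt.continuousWithinAt) (fun t ht => hd t ht.1.le ht.2.le)
  refine ⟨c, hc1.1, hc1.2, ?_⟩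
  have : b - a ≠ 0 := by linarith
  rw [hc2]; field_simp

theorem shape {G G1 G2 : ℝ → ℝ} {r : ℝ} (hr0 : 0 < r) (hr1 : r < 1)
    (hG : ∀ t, 0 ≤ t → t < 1 → HasDerivAt G (G1 t) t) (hG1 : ∀ t, 0 ≤ t → t < 1 → HasDerivAt G1 (G2 t) t)
    (h0 : 0 ≤ G 0) (hr : G r = 0) (hr' : G1 r = 0)
    (hp : ∀ s t, 0 ≤ s → s ≤ t → t < 1 → 0 ≤ G2 s → 0 ≤ G2 t) (t : ℝ) (ht0 : 0 ≤ t) (ht1 : t < 1) :
    0 ≤ G t := by
  have m1 : ∀ a b, 0 ≤ a → a < b → b < 1 → ∃ c, a < c ∧ c < b ∧ G b - G a = G1 c * (b - a) :=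
    fun a b h1 h2 h3 => mvt h2 (fun x hx1 hx2 => hG x (by linarith) (by linarith))
  have m2 : ∀ a b, 0 ≤ a → a < b → b < 1 → ∃ c, a < c ∧ c < b ∧ G1 b - G1 a = G2 c * (b - a) :=
    fun a b h1 h2 h3 => mvt h2 (fun x hx1 hx2 => hG1 x (by linarith) (by linarith))
  rcases lt_trichotomy t r with h | h | h
  · by_contra hneg
    push Not at hneg
    have ht0' : 0 < t := by
      rcases ht0.eq_or_lt with h2 | h2
      · rw [← h2] at hneg; linarith
      · exact h2
    obtain ⟨a, a1, a2, a3⟩ := m1 t r ht0 h hr1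
    have ha : 0 < G1 a := by
      by_contra h3; push Not at h3; nlinarith
    obtain ⟨b, b1, b2, b3⟩ := m2 a r (by linarith) a2 hr1
    have hb : G2 b < 0 := by
      by_contra h3; push Not at h3; nlinarith
    obtain ⟨e, e1, e2, e3⟩ := m1 0 t le_rfl ht0' ht1
    have he : G1 e < 0 := by
      by_contra h3; push Not at h3; nlinarith
    obtain ⟨f, f1, f2, f3⟩ := m2 e a e1.le (by linarith) (by linarith)
    have hf : 0 ≤ G2 f := by
      by_contra h3; push Not at h3; nlinarith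
    have := hp f b (by linarith) (by linarith) (by linarith) hf
    linarith
  · rw [h, hr]
  · obtain ⟨e, e1, e2, e3⟩ := m1 0 r le_rfl hr0 hr1
    have he : G1 e ≤ 0 := by
      by_contra h3; push Not at h3; nlinarith
    obtain ⟨f, f1, f2, f3⟩ := m2 e r e1.le e2 hr1
    have hf : 0 ≤ G2 f := by
      by_contra h3; push Not at h3; nlinarith
    obtain ⟨a, a1, a2, a3⟩ := m1 r t hr0.le h ht1
    obtain ⟨b, b1, b2, b3⟩ := m2 r a hr0.le a1 (by linarith)
    have hb := hp f b (by linarith) (by linarith) (by linarith) hf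
    have ha : 0 ≤ G1 a := by nlinarith
    nlinarith

def KOK (k T : ℝ) : Prop := ∀ t, 0 ≤ t → t < 1 → J T + A T * (t - T) + k / 2 * (t - T) ^ 2 ≤ J t

theorem kok_le_one {k T : ℝ} (hk : k ≤ 1) (h0 : 0 ≤ T) (h1 : T < 1) : KOK k T := by
  intro t ht0 ht1
  have := J_tangent (abs_lt_of ht0 ht1) (abs_lt_of h0 h1)
  nlinarith [sq_nonneg (t - T)]

theorem inv_mono {s t : ℝ} (h0 : 0 ≤ s) (hst : s ≤ t) (h1 : t < 1) : 1 / (1 - s ^ 2) ≤ 1 / (1 - t ^ 2) :=
  one_div_le_one_div_of_le (one_sub_sq_pos (abs_lt_of (h0.trans hst) h1)) (by nlinarith)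

theorem kok_log {k T : ℝ} (h0 : 0 < T) (h1 : T < 1) (hk : k * T ^ 2 ≤ -log (1 - T ^ 2)) : KOK k T := by
  intro t ht0 ht1
  have := shape (G := fun t => J t - (J T + A T * (t - T) + k / 2 * (t - T) ^ 2))
    (G1 := fun t => A t - A T - k * (t - T)) (G2 := fun t => 1 / (1 - t ^ 2) - k) h0 h1
    (fun x hx0 hx1 => by
      have e : HasDerivAt (fun x : ℝ => x - T) 1 x := (hasDerivAt_id x).sub_const T
      refine ((hasDerivAt_J (abs_lt_of hx0 hx1)).sub
        (((e.const_mul (A T)).const_add (J T)).add ((e.pow 2).const_mul (k / 2)))).congr_deriv ?_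
      simp; ring)
    (fun x hx0 hx1 => by
      have e : HasDerivAt (fun x : ℝ => x - T) 1 x := (hasDerivAt_id x).sub_const T
      refine (((hasDerivAt_A (abs_lt_of hx0 hx1)).sub_const (A T)).sub (e.const_mul k)).congr_deriv ?_
      simp)
    (by
      have := J_eq (abs_lt_of h0.le h1)
      simp only [J_zero]; nlinarith)
    (by simp) (by simp)
    (fun s t hs hst ht h => by have := inv_mono hs hst ht; linarith) t ht0 ht1
  linarith

noncomputable def Kf (r : ℝ) : ℝ := sig r * J r - xi r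

theorem Kf_nonneg {r : ℝ} (h0 : 0 < r) (h1 : r < 1) : 0 ≤ Kf r := by
  have := le_of_deriv' (f := fun t => sig r * J t - xi t) (f' := fun t => sig r * A t - xi1 t) h0.le
    (fun x hx1 hx2 => ((hasDerivAt_J (abs_lt_of hx1 (by linarith))).const_mul _).sub
      (hasDerivAt_xi (abs_lt_of hx1 (by linarith))))
    (fun x hx1 hx2 => by
      rw [← sig_mul_A hx1 (by linarith)]
      have := sig_mono hx1 hx2.le h1
      have := A_pos hx1 (hx2.trans h1)
      nlinarith)
  simpa [xi, J_zero, Kf] using this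

theorem G_bound {r : ℝ} (h0 : 0 < r) (h1 : r < 1) (t : ℝ) (ht0 : 0 ≤ t) (ht1 : t < 1) :
    sig r * J t - xi t ≤ Kf r * (2 * t / r - t ^ 2 / r ^ 2) := by
  have hK := Kf_nonneg h0 h1
  have := shape (G := fun t => Kf r * (2 * t / r - t ^ 2 / r ^ 2) - (sig r * J t - xi t))
    (G1 := fun t => Kf r * (2 / r - 2 * t / r ^ 2) - (sig r * A t - xi1 t))
    (G2 := fun t => (1 / (1 - t ^ 2)) * (2 * (1 / (1 - t ^ 2)) - (2 + sig r)) - 2 * Kf r / r ^ 2) h0 h1
    (fun x hx0 hx1 => by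
      refine ((((((hasDerivAt_id x).const_mul 2).div_const r).sub
        (((hasDerivAt_id x).pow 2).div_const (r ^ 2))).const_mul (Kf r)).sub
        (((hasDerivAt_J (abs_lt_of hx0 hx1)).const_mul _).sub (hasDerivAt_xi (abs_lt_of hx0 hx1)))).congr_deriv ?_
      simp)
    (fun x hx0 hx1 => by
      have hp := one_sub_sq_pos (abs_lt_of hx0 hx1)
      refine ((((((hasDerivAt_id x).const_mul 2).div_const (r ^ 2)).const_sub (2 / r)).const_mul (Kf r)).sub
        (((hasDerivAt_A (abs_lt_of hx0 hx1)).const_mul _).sub (hasDerivAt_xi1 (abs_lt_of hx0 hx1)))).congr_deriv ?_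
      field_simp; ring)
    (by simp [xi, J_zero])
    (by unfold Kf; field_simp; ring)
    (by rw [sig_mul_A h0 h1]; field_simp; ring)
    (fun s t hs hst ht h => by
      have h2 := inv_mono hs hst ht
      have h3 : 0 < 1 / (1 - s ^ 2) := one_div_pos.2 (one_sub_sq_pos (abs_lt_of hs (by linarith)))
      have h4 : 0 ≤ 2 * Kf r / r ^ 2 := by positivity
      have h5 : 0 ≤ 2 * (1 / (1 - s ^ 2)) - (2 + sig r) := by
        by_contra h6; push Not at h6; nlinarith
      nlinarith) t ht0 ht1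
  linarith

/-- the two-point identities, for `0 ≤ d < 1 - |c|` -/
theorem two_point {c d : ℝ} (h1 : d < 1 + c) (h2 : d < 1 - c) (h0 : 0 ≤ d) :
    (J (c + d) + J (c - d)) / 2 - J c = (1 + c) / 2 * J (d / (1 + c)) + (1 - c) / 2 * J (d / (1 - c)) ∧
    d * (A (c + d) - A (c - d)) / 2 = d / 2 * A (d / (1 + c)) + d / 2 * A (d / (1 - c)) := by
  have p1 : 0 < 1 + c := by linarith
  have p2 : 0 < 1 - c := by linarith
  have e1 : 1 + d / (1 + c) = (1 + (c + d)) / (1 + c) := by field_simp; ring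
  have e2 : 1 - d / (1 + c) = (1 + (c - d)) / (1 + c) := by field_simp; ring
  have e3 : 1 + d / (1 - c) = (1 - (c - d)) / (1 - c) := by field_simp; ring
  have e4 : 1 - d / (1 - c) = (1 - (c + d)) / (1 - c) := by field_simp; ring
  unfold J A
  rw [e1, e2, e3, e4, log_div (by linarith) p1.ne', log_div (by linarith) p1.ne', log_div (by linarith) p2.ne',
    log_div (by linarith) p2.ne']
  constructor
  · field_simp; ring
  · ring

end Vale.Agent.P322
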