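import Vale.Agent.P322.Cube
import Vale.Agent.P322.Pt

/-! Recursion over the first coordinate and the comparison of the averaged two-point terms. -/

namespace Vale.Agent.P322.Ix

open Real Finset

variable {n : ℕ}

theorem avg_succ (g : (Fin (n + 1) → Bool) → ℝ) :
    avg g = (avg (fun y => g (Fin.cons false y)) + avg (fun y => g (Fin.cons true y))) / 2 := by
  unfold avg
  rw [← (Fin.consEquiv (fun _ : Fin (n + 1) => Bool)).sum_comp, Fintype.sum_prod_type, Fintype.sum_bool, pow_succ]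
  field_simp
  exact add_comm _ _

theorem avg_const (a : ℝ) : avg (fun _ : Fin n → Bool => a) = a := by
  unfold avg; simp

theorem avg_add (f g : (Fin n → Bool) → ℝ) : avg (fun y => f y + g y) = avg f + avg g := by
  unfold avg; rw [sum_add_distrib, add_div]

theorem avg_mul (a : ℝ) (f : (Fin n → Bool) → ℝ) : avg (fun y => a * f y) = a * avg f := by
  unfold avg; rw [← mul_sum, mul_div_assoc]

theorem avg_mono {f g : (Fin n → Bool) → ℝ} (h : ∀ y, f y ≤ g y) : avg f ≤ avg g := by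
  unfold avg; gcongr with y; exact h y

theorem avg_lt {f g : (Fin n → Bool) → ℝ} (h : ∀ y, f y < g y) : avg f < avg g := by
  unfold avg
  exact div_lt_div_of_pos_right (sum_lt_sum_of_nonempty univ_nonempty fun y _ => h y) (by positivity)

/-- averaging a pointwise linear inequality -/
theorem avg_lin {f1 f2 f3 f4 f5 : (Fin n → Bool) → ℝ} {a0 a1 a2 a3 a4 a5 : ℝ}
    (h : ∀ y, 0 ≤ a0 + a1 * f1 y + a2 * f2 y + a3 * f3 y + a4 * f4 y + a5 * f5 y) :
    0 ≤ a0 + a1 * avg f1 + a2 * avg f2 + a3 * avg f3 + a4 * avg f4 + a5 * avg f5 := by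
  have := avg_mono (f := fun _ => 0) h
  rwa [avg_const, avg_add, avg_add, avg_add, avg_add, avg_add, avg_const, avg_mul, avg_mul, avg_mul, avg_mul,
    avg_mul] at this

theorem abs_avg_lt {u : (Fin n → Bool) → ℝ} (hu : ∀ x, |u x| < 1) : |avg u| < 1 := by
  have h1 := avg_lt (f := u) (g := fun _ => 1) fun y => (abs_lt.1 (hu y)).2
  have h2 := avg_lt (g := u) (f := fun _ => -1) fun y => (abs_lt.1 (hu y)).1
  rw [avg_const] at h1 h2
  exact abs_lt.2 ⟨h2, h1⟩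

theorem flip_zero (b : Bool) (y : Fin n → Bool) :
    flip 0 (Fin.cons b y : Fin (n + 1) → Bool) = Fin.cons (!b) y := by
  unfold flip; simp

theorem flip_succ (i : Fin n) (b : Bool) (y : Fin n → Bool) :
    flip i.succ (Fin.cons b y : Fin (n + 1) → Bool) = Fin.cons b (flip i y) := by
  unfold flip; rw [Fin.cons_update]; simp

theorem En_succ (u : (Fin (n + 1) → Bool) → ℝ) :
    En u = (En (fun y => u (Fin.cons false y)) + En (fun y => u (Fin.cons true y))) / 2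
      + avg (fun y => (u (Fin.cons false y) - u (Fin.cons true y))
          * (A (u (Fin.cons false y)) - A (u (Fin.cons true y))) / 4) := by
  unfold En
  rw [Fin.sum_univ_succ, add_comm, ← sum_add_distrib, sum_div]
  congr 1
  · refine sum_congr rfl fun i _ => ?_
    rw [avg_succ]; simp only [flip_succ]
  · rw [avg_succ, ← avg_add, div_eq_inv_mul, ← avg_mul]
    congr 1; funext y
    simp only [flip_zero, Bool.not_false, Bool.not_true]; ring

theorem sym_mono {m s d : ℝ} (hs : |s| ≤ d) (h1 : d < 1 + m) (h2 : d < 1 - m) :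
    J (m + s) + J (m - s) ≤ J (m + d) + J (m - d) := by
  have key : ∀ s, 0 ≤ s → s ≤ d → J (m + s) + J (m - s) ≤ J (m + d) + J (m - d) := by
    intro s s0 s1
    have a1 : |m + s| < 1 := abs_lt.2 ⟨by linarith, by linarith⟩
    have a2 : |m - s| < 1 := abs_lt.2 ⟨by linarith, by linarith⟩
    have b1 := J_tangent (t := m + d) (abs_lt.2 ⟨by linarith, by linarith⟩) a1
    have b2 := J_tangent (t := m - d) (abs_lt.2 ⟨by linarith, by linarith⟩) a2
    have b3 := A_mono a2 a1 (by linarith)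
    nlinarith [mul_nonneg (sub_nonneg.2 b3) (sub_nonneg.2 s1), sq_nonneg (d - s)]
  rcases abs_choice s with h | h
  · exact key s (h ▸ abs_nonneg s) (h ▸ hs)
  · have := key (-s) (h ▸ abs_nonneg s) (h ▸ hs)
    rw [← sub_eq_add_neg, sub_neg_eq_add] at this; linarith

theorem lt_w {c d : ℝ} (h0 : 0 ≤ d) (h1 : d < 1 + c) (h2 : d < 1 - c) : d < 1 - c ^ 2 := by
  rcases le_total 0 c with h | h <;> nlinarith

theorem chi_pt {c m v : ℝ} (hc : |c| < 1) (hm : |m| < 1) (hv : v = 1 - m ^ 2) :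
    0 ≤ 1 + m ^ 2 + v * J m - v * A m * m + -1 * (1 - c ^ 2) + (-2 * m + v * A m) * c + -v * J c + 0 * c
      + 0 * c := by
  have v0 : 0 < v := hv ▸ one_sub_sq_pos hm
  have a1 := mul_le_mul_of_nonneg_left (J_chi hc hm) v0.le
  have a2 : v * ((c - m) ^ 2 / (1 - m ^ 2)) = (c - m) ^ 2 := by rw [← hv]; field_simp
  rw [mul_add, a2] at a1; linarith

theorem kok_pt {c d I T1 T2 k τ : ℝ} (k0 : 0 ≤ k) (k1 : KOK k T1) (k2 : KOK k T2) (p0 : 0 ≤ d) (q1 : d < 1 + c)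
    (q2 : d < 1 - c) (q3 : I = (1 + c) / 2 * J (d / (1 + c)) + (1 - c) / 2 * J (d / (1 - c))) :
    0 ≤ -((J T1 - A T1 * T1 + k / 2 * T1 ^ 2) + (J T2 - A T2 * T2 + k / 2 * T2 ^ 2)) + 2 * I
      + -((J T1 - A T1 * T1 + k / 2 * T1 ^ 2) - (J T2 - A T2 * T2 + k / 2 * T2 ^ 2)) * c
      + -(A T1 + A T2 - k * T1 - k * T2 + 2 * k * τ) * d + k * τ ^ 2 * (1 - c ^ 2) + 0 * c := by
  have r1 : 0 < 1 + c := by linarith
  have r2 : 0 < 1 - c := by linarith
  have b1 := mul_le_mul_of_nonneg_left (k1 _ (div_nonneg p0 r1.le) ((div_lt_one r1).2 q1)) r1.le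
  have b2 := mul_le_mul_of_nonneg_left (k2 _ (div_nonneg p0 r2.le) ((div_lt_one r2).2 q2)) r2.le
  have b3 : (1 + c) * (J T1 + A T1 * (d / (1 + c) - T1) + k / 2 * (d / (1 + c) - T1) ^ 2)
      + (1 - c) * (J T2 + A T2 * (d / (1 - c) - T2) + k / 2 * (d / (1 - c) - T2) ^ 2)
      = (1 + c) * (J T1 - A T1 * T1 + k / 2 * T1 ^ 2) + (1 - c) * (J T2 - A T2 * T2 + k / 2 * T2 ^ 2)
        + d * (A T1 + A T2 - k * T1 - k * T2 + 2 * k * τ) - k * τ ^ 2 * (1 - c ^ 2)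
        + k * ((d - τ * (1 - c ^ 2)) ^ 2 / ((1 + c) * (1 - c))) := by
    field_simp; ring
  have b4 : 0 ≤ k * ((d - τ * (1 - c ^ 2)) ^ 2 / ((1 + c) * (1 - c))) := by positivity
  rw [q3]; linarith

theorem var_pt {m s δ x v : ℝ} (hv : v = 1 - m ^ 2) (v0 : 0 < v) (xv : x * v = δ) (hs1 : |s| ≤ δ) :
    v * (1 - x ^ 2) ≤ ((1 - (m + s) ^ 2) + (1 - (m - s) ^ 2)) / 2 := by
  have a1 : s ^ 2 ≤ δ ^ 2 := by rw [← sq_abs s]; exact pow_le_pow_left₀ (abs_nonneg s) hs1 2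
  have a2 : v ≤ 1 := by rw [hv]; linarith [sq_nonneg m]
  have a3 : δ ^ 2 ≤ v * x ^ 2 := by
    rw [← xv]; linarith [mul_nonneg (mul_nonneg (sq_nonneg x) v0.le) (sub_nonneg.2 a2)]
  linarith

/-- All facts on a pair of functions on the cube that the two inductions use. -/
theorem step (u0 u1 : (Fin n → Bool) → ℝ) (h0 : ∀ y, |u0 y| < 1) (h1 : ∀ y, |u1 y| < 1) {m v I0 Ic w : ℝ}
    (hm : m = (avg u0 + avg u1) / 2) (hv : v = 1 - m ^ 2) (hI0 : I0 = (J (avg u0) + J (avg u1)) / 2 - J m)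
    (hIc : Ic = avg fun y => (J (u0 y) + J (u1 y)) / 2 - J ((u0 y + u1 y) / 2))
    (hw : w = avg fun y => 1 - ((u0 y + u1 y) / 2) ^ 2) :
    ∃ x, 0 ≤ x ∧ x < 1 ∧ 0 < v ∧ v ≤ 1 ∧ x * v ≤ w ∧ w ≤ v ∧ I0 ≤ x ^ 2 * v * log 2 ∧
      v * (1 - x ^ 2) ≤ ((1 - avg u0 ^ 2) + (1 - avg u1 ^ 2)) / 2 ∧
      v * (avg (fun y => J ((u0 y + u1 y) / 2)) - J m) ≤ v - w ∧
      ∀ k τ, 0 ≤ k → (k ≤ 1 ∨ ∀ T : ℝ, 2 * x - 1 ≤ T → T < 1 → 0 < T ∧ k * T ^ 2 ≤ -log (1 - T ^ 2)) →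
        2 * I0 + k * (2 * τ * (x * v) - τ ^ 2 * w - x ^ 2 * v) ≤ 2 * Ic := by
  obtain ⟨c, hc⟩ : ∃ c : (Fin n → Bool) → ℝ, c = fun y => (u0 y + u1 y) / 2 := ⟨_, rfl⟩
  obtain ⟨d, hd⟩ : ∃ d : (Fin n → Bool) → ℝ, d = fun y => |u0 y - u1 y| / 2 := ⟨_, rfl⟩
  have hcy : ∀ y, c y = (u0 y + u1 y) / 2 := fun y => by rw [hc]
  have hdy : ∀ y, d y = |u0 y - u1 y| / 2 := fun y => by rw [hd]
  have P := fun y => pair (h0 y) (h1 y) (hcy y) (hdy y)
  have hc1 : ∀ y, |c y| < 1 := fun y => by rw [hcy]; exact mid_lt (h0 y) (h1 y)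
  simp only [← hcy] at hIc hw ⊢
  have hmc : m = avg c := by
    rw [hm, ← avg_add, div_eq_inv_mul, ← avg_mul]; congr 1; funext y; rw [hcy]; ring
  have hm1 : |m| < 1 := hmc ▸ abs_avg_lt hc1
  obtain ⟨m1, m2⟩ := abs_lt.1 hm1
  have v0 : 0 < v := hv ▸ one_sub_sq_pos hm1
  obtain ⟨δ, hδ⟩ : ∃ δ, δ = avg d := ⟨_, rfl⟩
  have d0 : 0 ≤ δ := by
    have := avg_mono (f := fun _ => 0) fun y => (P y).1
    rwa [avg_const, ← hδ] at this
  have d1 : δ < 1 + m := by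
    have := avg_lt fun y => (P y).2.1
    rwa [avg_add, avg_const, ← hδ, ← hmc] at this
  have d2 : δ < 1 - m := by
    have := avg_lt (f := fun y => d y + c y) (g := fun _ => 1) fun y => by linarith [(P y).2.2.1]
    rw [avg_add, avg_const, ← hδ, ← hmc] at this; linarith
  have dw : δ < w := by
    rw [hδ, hw]; exact avg_lt fun y => lt_w (P y).1 (P y).2.1 (P y).2.2.1
  have wv : w ≤ v := by
    have := avg_lin (f1 := fun y => 1 - c y ^ 2) (f2 := c) (f3 := c) (f4 := c) (f5 := c) (a0 := 1 + m ^ 2)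
      (a1 := -1) (a2 := -2 * m) (a3 := 0) (a4 := 0) (a5 := 0) fun y => by linarith [sq_nonneg (c y - m)]
    rw [← hw, ← hmc] at this; linarith
  have dv : δ < v := by linarith
  obtain ⟨s, hs⟩ : ∃ s, s = (avg u0 - avg u1) / 2 := ⟨_, rfl⟩
  have hs1 : |s| ≤ δ := by
    have a1 := avg_lin (f1 := d) (f2 := u0) (f3 := u1) (f4 := c) (f5 := c) (a0 := 0)
      (a1 := 1) (a2 := -1 / 2) (a3 := 1 / 2) (a4 := 0) (a5 := 0)
      fun y => by rw [hdy]; linarith [le_abs_self (u0 y - u1 y)]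
    have a2 := avg_lin (f1 := d) (f2 := u0) (f3 := u1) (f4 := c) (f5 := c) (a0 := 0)
      (a1 := 1) (a2 := 1 / 2) (a3 := -1 / 2) (a4 := 0) (a5 := 0)
      fun y => by rw [hdy]; linarith [neg_abs_le (u0 y - u1 y)]
    rw [hs, hδ]; exact abs_le.2 ⟨by linarith, by linarith⟩
  have e0 : avg u0 = m + s := by rw [hm, hs]; ring
  have e1 : avg u1 = m - s := by rw [hm, hs]; ring
  have p1 : 0 < 1 + m := by linarith
  have p2 : 0 < 1 - m := by linarith
  have hvf : v = (1 + m) * (1 - m) := by rw [hv]; ring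
  obtain ⟨x, hx⟩ : ∃ x, x = δ / v := ⟨_, rfl⟩
  have xv : x * v = δ := by rw [hx]; field_simp
  have x0 : 0 ≤ x := by rw [hx]; positivity
  have x1 : x < 1 := by rw [hx, div_lt_one v0]; exact dv
  obtain ⟨T1, hT1⟩ : ∃ T, T = δ / (1 + m) := ⟨_, rfl⟩
  obtain ⟨T2, hT2⟩ : ∃ T, T = δ / (1 - m) := ⟨_, rfl⟩
  have t1 : T1 = x * (1 - m) := by rw [hT1, hx, hvf]; field_simp
  have t2 : T2 = x * (1 + m) := by rw [hT2, hx, hvf]; field_simp
  have t10 : 0 ≤ T1 := by rw [hT1]; positivity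
  have t20 : 0 ≤ T2 := by rw [hT2]; positivity
  have t11 : T1 < 1 := by rw [hT1, div_lt_one p1]; exact d1
  have t21 : T2 < 1 := by rw [hT2, div_lt_one p2]; exact d2
  have I0le : I0 ≤ (1 + m) / 2 * J T1 + (1 - m) / 2 * J T2 := by
    rw [hT1, hT2, ← (two_point d1 d2 d0).1, hI0, e0, e1]
    linarith [sym_mono hs1 d1 d2]
  have sq : (1 + m) / 2 * T1 ^ 2 + (1 - m) / 2 * T2 ^ 2 = x ^ 2 * v := by rw [t1, t2, hvf]; ring
  refine ⟨x, x0, x1, v0, by rw [hv]; linarith [sq_nonneg m], by rw [xv]; exact dw.le, wv, ?_, ?_, ?_, ?_⟩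
  · have a1 := mul_le_mul_of_nonneg_left (J_le_sq (abs_lt_of t10 t11).le) (by positivity : 0 ≤ (1 + m) / 2)
    have a2 := mul_le_mul_of_nonneg_left (J_le_sq (abs_lt_of t20 t21).le) (by positivity : 0 ≤ (1 - m) / 2)
    rw [← sq]; linarith
  · rw [e0, e1]; exact var_pt hv v0 xv hs1
  · have := avg_lin (f1 := fun y => 1 - c y ^ 2) (f2 := c) (f3 := fun y => J (c y)) (f4 := c) (f5 := c)
      fun y => chi_pt (hc1 y) hm1 hv
    rw [← hw, ← hmc] at this; linarith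
  · intro k τ k0 hk
    have kok : ∀ T, 0 ≤ T → T < 1 → 2 * x - 1 ≤ T → KOK k T := fun T a1 a2 a3 => by
      rcases hk with h | h
      · exact kok_le_one h a1 a2
      · exact kok_log (h T a3 a2).1 a2 (h T a3 a2).2
    have k1 := kok T1 t10 t11 (by rw [t1]; rw [t2] at t21; linarith)
    have k2 := kok T2 t20 t21 (by rw [t2]; rw [t1] at t11; linarith)
    have := avg_lin (f1 := fun y => (J (u0 y) + J (u1 y)) / 2 - J (c y)) (f2 := c) (f3 := d)
      (f4 := fun y => 1 - c y ^ 2) (f5 := c)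
      fun y => kok_pt (τ := τ) k0 k1 k2 (P y).1 (P y).2.1 (P y).2.2.1 (P y).2.2.2.1
    rw [← hIc, ← hw, ← hmc, ← hδ, ← xv] at this
    have a1 : (1 + m) * T1 = x * v := by rw [t1, hvf]; ring
    have a2 : (1 - m) * T2 = x * v := by rw [t2, hvf]; ring
    have a3 : A T1 * ((1 + m) * T1) = A T1 * (x * v) := by rw [a1]
    have a4 : A T2 * ((1 - m) * T2) = A T2 * (x * v) := by rw [a2]
    have a5 : k * T1 * ((1 + m) * T1) = k * T1 * (x * v) := by rw [a1]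
    have a6 : k * T2 * ((1 - m) * T2) = k * T2 * (x * v) := by rw [a2]
    have a7 : k * ((1 + m) / 2 * T1 ^ 2 + (1 - m) / 2 * T2 ^ 2) = k * (x ^ 2 * v) := by rw [sq]
    linarith

end Vale.Agent.P322.Ix
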